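import Vale.Agent.P042.R2.H352.Rec

set_option autoImplicit false

/-!
# P042, context free grammars: the induction on the length
-/

namespace Vale.Agent.P042.H352

open Set Vale.Agent.P001.R2.H953

lemma num_W {s S n R : ℝ} (hs0 : 0 ≤ s) (hs : s ≤ S) (hS : 1 ≤ S) (hn : 20000 ≤ n) (hR : 0 ≤ R) :
    s * (n + 1) ^ 2 * (R * 5 ^ 24 / (S * n) ^ 24) ≤ R / (S * n) ^ 16 := by
  obtain ⟨x, hx⟩ : ∃ x, x = S * n := ⟨_, rfl⟩
  rw [← hx]
  have hn0 : 0 < n := by linarith
  have hx1 : 20000 ≤ x := by rw [hx]; nlinarith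
  have hx0 : 0 < x := by linarith
  have h1 : s * (n + 1) ^ 2 ≤ 4 * x ^ 2 := by
    have e1 : (n + 1) ^ 2 ≤ (2 * n) ^ 2 := by gcongr; linarith
    calc s * (n + 1) ^ 2 ≤ S * (2 * n) ^ 2 := by gcongr
      _ = 4 * (S * 1 * n ^ 2) := by ring
      _ ≤ 4 * (S * S * n ^ 2) := by gcongr
      _ = 4 * x ^ 2 := by rw [hx]; ring
  have h2 : 4 * x ^ 2 * 5 ^ 24 ≤ x ^ 8 := by
    have : (20000 : ℝ) ^ 6 ≤ x ^ 6 := by gcongr
    nlinarith [pow_pos hx0 2]
  rw [← mul_div_assoc, div_le_div_iff₀ (by positivity) (by positivity)]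
  calc s * (n + 1) ^ 2 * (R * 5 ^ 24) * x ^ 16 ≤ 4 * x ^ 2 * (R * 5 ^ 24) * x ^ 16 := by gcongr
    _ = (4 * x ^ 2 * 5 ^ 24) * (R * x ^ 16) := by ring
    _ ≤ x ^ 8 * (R * x ^ 16) := by gcongr
    _ = R * x ^ 24 := by ring

lemma num_K {s S n R E : ℝ} (hs0 : 0 ≤ s) (hs : s ≤ S) (hS : 1 ≤ S) (hn : 20000 ≤ n) (hR : 0 ≤ R)
    (hE0 : 0 ≤ E) (hE : E ≤ S * n) :
    s ^ 2 * (n + 1) ^ 4 * (2 * s * (R * E) * 5 ^ 16 / (S * n) ^ 16) ≤ R / (S * n) ^ 8 := by
  obtain ⟨x, hx⟩ : ∃ x, x = S * n := ⟨_, rfl⟩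
  rw [← hx] at hE ⊢
  have hn0 : 0 < n := by linarith
  have hx1 : 20000 ≤ x := by rw [hx]; nlinarith
  have hx0 : 0 < x := by linarith
  have hS0 : 0 ≤ S := by linarith
  have h1 : s ^ 3 * (n + 1) ^ 4 ≤ 16 * x ^ 4 := by
    have e1 : (n + 1) ^ 4 ≤ (2 * n) ^ 4 := by gcongr; linarith
    calc s ^ 3 * (n + 1) ^ 4 ≤ S ^ 3 * (2 * n) ^ 4 := by gcongr
      _ = 16 * (S ^ 3 * 1 * n ^ 4) := by ring
      _ ≤ 16 * (S ^ 3 * S * n ^ 4) := by gcongr
      _ = 16 * x ^ 4 := by rw [hx]; ring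
  have h2 : 16 * x ^ 4 * (2 * x) * 5 ^ 16 ≤ x ^ 8 := by
    have : (20000 : ℝ) ^ 3 ≤ x ^ 3 := by gcongr
    nlinarith [pow_pos hx0 5]
  rw [← mul_div_assoc, div_le_div_iff₀ (by positivity) (by positivity)]
  calc s ^ 2 * (n + 1) ^ 4 * (2 * s * (R * E) * 5 ^ 16) * x ^ 8
      = (s ^ 3 * (n + 1) ^ 4) * (2 * E) * 5 ^ 16 * (R * x ^ 8) := by ring
    _ ≤ (16 * x ^ 4) * (2 * x) * 5 ^ 16 * (R * x ^ 8) := by gcongr
    _ ≤ x ^ 8 * (R * x ^ 8) := by gcongr
    _ = R * x ^ 16 := by ring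

lemma inv_part {S n m : ℝ} {q : ℕ} (hS : 1 ≤ S) (hn : 0 < n) (hm : n ≤ 5 * m) :
    1 / (S * m) ^ q ≤ 5 ^ q / (S * n) ^ q := by
  have hS0 : 0 < S := by linarith
  have hm0 : 0 < m := by linarith
  rw [div_le_div_iff₀ (by positivity) (by positivity), one_mul, ← mul_pow]
  gcongr ?_ ^ q
  nlinarith

variable {b : ℕ}

theorem main_ind (hb : 1 ≤ b) (g : ContextFreeGrammar (Fin b)) (T : Set (List (Fin b)))
    (s S η : ℝ) (k₀ : ℕ) (hsi : ((items g).card : ℝ) ≤ s) (hsr : (g.rules.card : ℝ) ≤ s)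
    (hs1 : 1 ≤ s) (hs : s ≤ S) (hk : 20000 ≤ k₀) (hη : 0 ≤ η)
    (hη2 : Real.exp (2 * (η * k₀)) ≤ S * k₀)
    (base : ∀ n : ℕ, k₀ ≤ n → n ≤ 5 * k₀ + 5 →
      WB g T n ((b : ℝ) ^ n * Real.exp (-(η * n)) / (S * n) ^ 16) ∧
      KB g T n ((b : ℝ) ^ n * Real.exp (-(η * n)) / (S * n) ^ 8)) :
    ∀ n : ℕ, k₀ ≤ n →
      WB g T n ((b : ℝ) ^ n * Real.exp (-(η * n)) / (S * n) ^ 16) ∧
      KB g T n ((b : ℝ) ^ n * Real.exp (-(η * n)) / (S * n) ^ 8) := by
  have hb1 : (1 : ℝ) ≤ b := by exact_mod_cast hb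
  have hS : 1 ≤ S := hs1.trans hs
  have hs0 : 0 ≤ s := by linarith
  have hk0 : (20000 : ℝ) ≤ k₀ := by exact_mod_cast hk
  intro n
  induction n using Nat.strong_induction_on with
  | _ n ih =>
  intro hn
  by_cases hnb : n ≤ 5 * k₀ + 5
  · exact base n hn hnb
  rw [not_le] at hnb
  have hnr : (20000 : ℝ) ≤ n := by exact_mod_cast hk.trans hn
  have hn0 : (0 : ℝ) < n := by linarith
  have hkn : (k₀ : ℝ) ≤ n := by exact_mod_cast hn
  obtain ⟨R, hR⟩ : ∃ R : ℝ, R = (b : ℝ) ^ n * Real.exp (-(η * n)) := ⟨_, rfl⟩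
  have hR0 : 0 ≤ R := by rw [hR]; positivity
  rw [← hR]
  have hW : WB g T n (R / (S * n) ^ 16) := by
    have h1 := WB_step g T s hsi n (by omega) (R * 5 ^ 24 / (S * n) ^ 24) (by positivity) (by
      intro j t hjt hj ht
      have hj0 : (0 : ℝ) < j := by exact_mod_cast (by omega : 0 < j)
      have ht0 : (0 : ℝ) < t := by exact_mod_cast (by omega : 0 < t)
      refine ⟨_, _, ?_, ?_, (ih j (by omega) (by omega)).1, (ih t (by omega) (by omega)).2, ?_⟩
      · positivity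
      · positivity
      · have e1 := inv_part (S := S) (n := n) (m := j) (q := 16) hS hn0
          (by exact_mod_cast (by omega : n ≤ 5 * j))
        have e2 := inv_part (S := S) (n := n) (m := t) (q := 8) hS hn0
          (by exact_mod_cast (by omega : n ≤ 5 * t))
        have e3 : R = ((b : ℝ) ^ j * Real.exp (-(η * j))) * ((b : ℝ) ^ t * Real.exp (-(η * t))) := by
          rw [hR, ← hjt]
          push_cast
          rw [pow_add, mul_add, neg_add, Real.exp_add]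
          ring
        calc (b : ℝ) ^ j * Real.exp (-(η * j)) / (S * j) ^ 16 *
              ((b : ℝ) ^ t * Real.exp (-(η * t)) / (S * t) ^ 8)
            = R * (1 / (S * j) ^ 16 * (1 / (S * t) ^ 8)) := by rw [e3]; ring
          _ ≤ R * (5 ^ 16 / (S * n) ^ 16 * (5 ^ 8 / (S * n) ^ 8)) := by gcongr
          _ = R * 5 ^ 24 / (S * n) ^ 24 := by
            rw [div_mul_div_comm, ← pow_add, ← pow_add]; ring)
    exact h1.mono (num_W hs0 hs hS hnr hR0)
  refine ⟨hW, ?_⟩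
  -- words up to n
  have hWle : ∀ a : ℕ, k₀ ≤ a → a ≤ n →
      WB g T a ((b : ℝ) ^ a * Real.exp (-(η * a)) / (S * a) ^ 16) := by
    intro a ha han
    rcases Nat.lt_or_ge a n with h | h
    · exact (ih a h ha).1
    · obtain rfl : a = n := by omega
      rw [hR] at hW
      exact hW
  have hdiv : ∀ (a : ℕ) (q : ℕ), k₀ ≤ a →
      (b : ℝ) ^ a * Real.exp (-(η * a)) / (S * a) ^ q ≤
        (b : ℝ) ^ a * Real.exp (η * k₀ - η * a) := by
    intro a q ha
    have ha1 : (1 : ℝ) ≤ a := by exact_mod_cast (by omega : 1 ≤ a)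
    have e1 : 1 ≤ (S * a) ^ q := one_le_pow₀ (by nlinarith)
    refine (div_le_self (by positivity) e1).trans ?_
    gcongr
    have : 0 ≤ η * k₀ := by positivity
    linarith
  have hKx : ∀ t : ℕ, t < n → KB g T t ((b : ℝ) ^ t * Real.exp (η * k₀ - η * t)) := by
    intro t ht
    rcases Nat.lt_or_ge t k₀ with h | h
    · refine (KB_triv g T t).mono ?_
      refine le_mul_of_one_le_right (by positivity) (Real.one_le_exp ?_)
      have : (t : ℝ) ≤ k₀ := by exact_mod_cast h.le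
      nlinarith
    · exact ((ih t ht h).2).mono (hdiv t 8 h)
  have hGs : ∀ a : ℕ, k₀ ≤ a → a ≤ n →
      GB g T a (2 * s * ((b : ℝ) ^ a * Real.exp (-(η * a)) / (S * a) ^ 16)) := by
    intro a ha han
    exact GB_of_WB g T s hsr a (by omega) _ (by positivity) (hWle a ha han)
  have hGx : ∀ a : ℕ, a ≤ n →
      GB g T a (2 * s * ((b : ℝ) ^ a * Real.exp (η * k₀ - η * a))) := by
    intro a han
    rcases Nat.lt_or_ge a k₀ with h | h
    · refine (GB_triv g T a).mono ?_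
      have e1 : 1 ≤ Real.exp (η * k₀ - η * a) := by
        refine Real.one_le_exp ?_
        have : (a : ℝ) ≤ k₀ := by exact_mod_cast h.le
        nlinarith
      calc (b : ℝ) ^ a = 1 * ((b : ℝ) ^ a * 1) := by ring
        _ ≤ 2 * s * ((b : ℝ) ^ a * Real.exp (η * k₀ - η * a)) := by
          gcongr
          linarith
    · refine (hGs a h han).mono ?_
      have := hdiv a 16 h
      gcongr
  have h1 := KB_step g T s hsi n (by omega)
    (2 * s * (R * Real.exp (2 * (η * k₀))) * 5 ^ 16 / (S * n) ^ 16) (by positivity) (by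
    intro t₀ a t₁ hsum ht0 ht1
    have hR' : R * Real.exp (2 * (η * k₀)) = ((b : ℝ) ^ t₀ * Real.exp (η * k₀ - η * t₀)) *
        ((b : ℝ) ^ a * Real.exp (-(η * a))) * ((b : ℝ) ^ t₁ * Real.exp (η * k₀ - η * t₁)) := by
      have e1 : Real.exp (-(η * n)) * Real.exp (2 * (η * k₀)) =
          Real.exp (η * k₀ - η * t₀) * Real.exp (-(η * a)) * Real.exp (η * k₀ - η * t₁) := by
        rw [← Real.exp_add, ← Real.exp_add, ← Real.exp_add]
        congr 1
        rw [← hsum]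
        push_cast
        ring
      rw [hR, mul_assoc, e1, ← hsum, pow_add, pow_add]
      ring
    by_cases hcase : n ≤ 5 * a
    · -- the step is long
      have ha0 : (0 : ℝ) < a := by exact_mod_cast (by omega : 0 < a)
      refine ⟨_, _, _, ?_, ?_, ?_, hKx t₀ (by omega), hGs a (by omega) (by omega),
        hKx t₁ (by omega), ?_⟩
      · positivity
      · positivity
      · positivity
      · have e1 := inv_part (S := S) (n := n) (m := a) (q := 16) hS hn0
          (by exact_mod_cast hcase)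
        rw [hR']
        calc (b : ℝ) ^ t₀ * Real.exp (η * k₀ - η * t₀) *
              (2 * s * ((b : ℝ) ^ a * Real.exp (-(η * a)) / (S * a) ^ 16)) *
              ((b : ℝ) ^ t₁ * Real.exp (η * k₀ - η * t₁))
            = 2 * s * (((b : ℝ) ^ t₀ * Real.exp (η * k₀ - η * t₀)) *
              ((b : ℝ) ^ a * Real.exp (-(η * a))) *
              ((b : ℝ) ^ t₁ * Real.exp (η * k₀ - η * t₁))) * (1 / (S * a) ^ 16) := by ring
          _ ≤ 2 * s * (((b : ℝ) ^ t₀ * Real.exp (η * k₀ - η * t₀)) *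
              ((b : ℝ) ^ a * Real.exp (-(η * a))) *
              ((b : ℝ) ^ t₁ * Real.exp (η * k₀ - η * t₁))) * (5 ^ 16 / (S * n) ^ 16) := by gcongr
          _ = _ := by ring
    · -- both sides are long
      rw [not_le] at hcase
      have ht0' : (0 : ℝ) < t₀ := by exact_mod_cast (by omega : 0 < t₀)
      have ht1' : (0 : ℝ) < t₁ := by exact_mod_cast (by omega : 0 < t₁)
      refine ⟨_, _, _, ?_, ?_, ?_, (ih t₀ (by omega) (by omega)).2, hGx a (by omega),
        (ih t₁ (by omega) (by omega)).2, ?_⟩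
      · positivity
      · positivity
      · positivity
      · have e1 := inv_part (S := S) (n := n) (m := t₀) (q := 8) hS hn0
          (by exact_mod_cast (by omega : n ≤ 5 * t₀))
        have e2 := inv_part (S := S) (n := n) (m := t₁) (q := 8) hS hn0
          (by exact_mod_cast (by omega : n ≤ 5 * t₁))
        have e3 : ((b : ℝ) ^ t₀ * Real.exp (-(η * t₀))) * ((b : ℝ) ^ a *
            Real.exp (η * k₀ - η * a)) * ((b : ℝ) ^ t₁ * Real.exp (-(η * t₁))) ≤
            R * Real.exp (2 * (η * k₀)) := by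
          rw [hR']
          have e4 : ((b : ℝ) ^ t₀ * Real.exp (-(η * t₀))) * ((b : ℝ) ^ a *
            Real.exp (η * k₀ - η * a)) * ((b : ℝ) ^ t₁ * Real.exp (-(η * t₁))) =
              ((b : ℝ) ^ t₀ * Real.exp (η * k₀ - η * t₀)) *
              ((b : ℝ) ^ a * Real.exp (-(η * a))) * ((b : ℝ) ^ t₁ * Real.exp (-(η * t₁))) := by
            have e5 : Real.exp (-(η * t₀)) * Real.exp (η * k₀ - η * a) =
                Real.exp (η * k₀ - η * t₀) * Real.exp (-(η * a)) := by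
              rw [← Real.exp_add, ← Real.exp_add]
              congr 1
              ring
            linear_combination ((b : ℝ) ^ t₀ * (b : ℝ) ^ a * ((b : ℝ) ^ t₁ *
              Real.exp (-(η * t₁)))) * e5
          rw [e4]
          gcongr
          have : 0 ≤ η * k₀ := by positivity
          linarith
        calc (b : ℝ) ^ t₀ * Real.exp (-(η * t₀)) / (S * t₀) ^ 8 *
              (2 * s * ((b : ℝ) ^ a * Real.exp (η * k₀ - η * a))) *
              ((b : ℝ) ^ t₁ * Real.exp (-(η * t₁)) / (S * t₁) ^ 8)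
            = 2 * s * (((b : ℝ) ^ t₀ * Real.exp (-(η * t₀))) *
              ((b : ℝ) ^ a * Real.exp (η * k₀ - η * a)) *
              ((b : ℝ) ^ t₁ * Real.exp (-(η * t₁)))) *
              (1 / (S * t₀) ^ 8 * (1 / (S * t₁) ^ 8)) := by ring
          _ ≤ 2 * s * (R * Real.exp (2 * (η * k₀))) *
              (5 ^ 8 / (S * n) ^ 8 * (5 ^ 8 / (S * n) ^ 8)) := by gcongr
          _ = _ := by
            rw [div_mul_div_comm, ← pow_add, ← pow_add]; ring)
  refine h1.mono (num_K hs0 hs hS hnr hR0 (Real.exp_pos _).le (hη2.trans ?_))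
  gcongr

end Vale.Agent.P042.H352
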