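import Vale.Agent.P042.R2.H352.Rec
import Vale.Agent.P042.R2.H463.Base
import Vale.Agent.P042.R2.H463.Num

set_option autoImplicit false

/-!
# P042, context free grammars: words and contexts in a block of a difference free set
-/

namespace Vale.Agent.P042.H352

open Set Vale.Agent.P001.R2.H953 Polynomial Vale.Agent.P042.H463

variable {a k b : ℕ}

/-- Words at an offset divisible by `k`. -/
theorem word_dvd (hb : 2 ≤ b) {A : Finset ℤ} (hA : DiffFree (C (a : ℤ) * X ^ k : ℤ[X]) A)
    (p z : List (Fin b)) (hp : k ∣ p.length) (n : ℕ) (V : Set (List (Fin b)))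
    (hV : ∀ v ∈ V, v.length = n ∧ ((val b (p ++ v ++ z) : ℕ) : ℤ) ∈ A) :
    V.ncard ≤ rMax (C (a : ℤ) * X ^ k : ℤ[X]) (b ^ n) := by
  classical
  obtain ⟨m, hm⟩ := hp
  have hVf : V.Finite := (len_finite n).subset fun v hv => (hV v hv).1
  obtain ⟨D, hD⟩ : ∃ D : Finset ℤ, D = hVf.toFinset.image fun v => ((val b v : ℕ) : ℤ) := ⟨_, rfl⟩
  have hcard : V.ncard = D.card := by
    rw [hD, Finset.card_image_of_injOn, Set.ncard_eq_toFinset_card V hVf]
    intro x hx y hy hxy
    rw [Finset.mem_coe, Set.Finite.mem_toFinset] at hx hy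
    have h0 : ((val b x : ℕ) : ℤ) = ((val b y : ℕ) : ℤ) := hxy
    have h1 : val b x = val b y := by exact_mod_cast h0
    exact val_inj hb (by rw [(hV x hx).1, (hV y hy).1]) h1
  have hfree : DiffFree (C (a : ℤ) * X ^ k : ℤ[X]) D := by
    refine H463.DiffFree.of_scale hA (u := b ^ m) (Nat.one_le_pow _ _ (by omega))
      ((val b p + b ^ (p.length + n) * val b z : ℕ) : ℤ) ?_
    intro d hd
    rw [hD, Finset.mem_image] at hd
    obtain ⟨v, hv, rfl⟩ := hd
    rw [Set.Finite.mem_toFinset] at hv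
    obtain ⟨h1, h2⟩ := hV v hv
    have e : ((val b (p ++ v ++ z) : ℕ) : ℤ) =
        ((val b p + b ^ (p.length + n) * val b z : ℕ) : ℤ) +
          ((b ^ m : ℕ) : ℤ) ^ k * ((val b v : ℕ) : ℤ) := by
      rw [val_append, val_append, List.length_append, h1, ← Nat.cast_pow, ← pow_mul,
        Nat.mul_comm m k, ← hm]
      push_cast
      ring
    rwa [e] at h2
  rw [hcard]
  refine card_le_rMax' hfree _ ?_
  intro x hx
  rw [hD, Finset.mem_image] at hx
  obtain ⟨v, hv, rfl⟩ := hx
  rw [Set.Finite.mem_toFinset] at hv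
  have h1 := val_lt hb v
  rw [(hV v hv).1] at h1
  exact ⟨by positivity, by exact_mod_cast h1⟩

/-- Words at any offset. -/
theorem word_any (hk : 1 ≤ k) (hb : 2 ≤ b) {A : Finset ℤ}
    (hA : DiffFree (C (a : ℤ) * X ^ k : ℤ[X]) A) (p z : List (Fin b)) (n : ℕ) (hn : k ≤ n)
    (V : Set (List (Fin b)))
    (hV : ∀ v ∈ V, v.length = n ∧ ((val b (p ++ v ++ z) : ℕ) : ℤ) ∈ A) :
    ∃ e : ℕ, e ≤ k ∧
      (V.ncard : ℝ) ≤ (b : ℝ) ^ e * rMax (C (a : ℤ) * X ^ k : ℤ[X]) (b ^ (n - e)) := by
  obtain ⟨e, he⟩ : ∃ e : ℕ, e = k - p.length % k := ⟨_, rfl⟩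
  have hmod := Nat.mod_lt p.length (show 0 < k by omega)
  have hek : e ≤ k := by omega
  have hdvd : k ∣ p.length + e := by
    have h1 := Nat.div_add_mod p.length k
    refine ⟨p.length / k + 1, ?_⟩
    rw [mul_add, mul_one]
    omega
  have hVf : V.Finite := (len_finite n).subset fun v hv => (hV v hv).1
  refine ⟨e, hek, ?_⟩
  have h1 := ncard_coverR hVf (len_finite (α := Fin b) e).toFinset
    (fun f => {v | v.take e = f}) (by
      intro v hv
      refine ⟨v.take e, ?_, rfl⟩
      rw [Set.Finite.mem_toFinset]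
      show (v.take e).length = e
      rw [List.length_take, (hV v hv).1]
      omega) (rMax (C (a : ℤ) * X ^ k : ℤ[X]) (b ^ (n - e)) : ℕ) (by
      intro f hf
      rw [Set.Finite.mem_toFinset] at hf
      have hf' : f.length = e := hf
      have hsub : V ∩ {v | v.take e = f} ⊆ (fun v => f ++ v) '' {v | f ++ v ∈ V} := by
        rintro v ⟨hv, hvf⟩
        have hvf' : v.take e = f := hvf
        have e1 : f ++ v.drop e = v := by rw [← hvf']; exact List.take_append_drop e v
        refine ⟨v.drop e, ?_, e1⟩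
        show f ++ v.drop e ∈ V
        rw [e1]; exact hv
      have hfin : {v | f ++ v ∈ V}.Finite := by
        refine (len_finite (α := Fin b) (n - e)).subset fun v hv => ?_
        have := (hV _ hv).1
        rw [List.length_append] at this
        show v.length = n - e
        omega
      have h2 : (V ∩ {v | v.take e = f}).ncard ≤ {v | f ++ v ∈ V}.ncard :=
        (Set.ncard_le_ncard hsub (hfin.image _)).trans (Set.ncard_image_le hfin)
      have h3 := word_dvd (a := a) (k := k) hb hA (p ++ f) z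
        (by rw [List.length_append, hf']; exact hdvd) (n - e) {v | f ++ v ∈ V} (by
          intro v hv
          obtain ⟨h4, h5⟩ := hV _ hv
          rw [List.length_append] at h4
          refine ⟨by omega, ?_⟩
          have e1 : p ++ f ++ v ++ z = p ++ (f ++ v) ++ z := by simp [List.append_assoc]
          rw [e1]
          exact h5)
      exact_mod_cast h2.trans h3)
  refine h1.trans ?_
  refine mul_le_mul_of_nonneg_right ?_ (Nat.cast_nonneg _)
  have h2 := ncard_len (b := b) e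
  rw [Set.ncard_eq_toFinset_card _ (len_finite (α := Fin b) e)] at h2
  exact_mod_cast h2

/-- The bound for words. -/
theorem word_bound (hk : 1 ≤ k) (hb : 2 ≤ b) {K c : ℝ} (hK : 0 ≤ K) (hc : 0 ≤ c)
    (hr : ∀ N : ℕ, 1 ≤ N → (rMax (C (a : ℤ) * X ^ k : ℤ[X]) N : ℝ) ≤
      K * N * Real.exp (-(Real.log N) ^ c)) {A : Finset ℤ}
    (hA : DiffFree (C (a : ℤ) * X ^ k : ℤ[X]) A) (p z : List (Fin b)) (n : ℕ) (hn : k ≤ n)
    (V : Set (List (Fin b)))
    (hV : ∀ v ∈ V, v.length = n ∧ ((val b (p ++ v ++ z) : ℕ) : ℤ) ∈ A) :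
    (V.ncard : ℝ) ≤ K * (b : ℝ) ^ n * Real.exp (-(((n : ℝ) - k) * Real.log b) ^ c) := by
  obtain ⟨e, he, h1⟩ := word_any hk hb hA p z n hn V hV
  have hb1 : (1 : ℝ) ≤ b := by exact_mod_cast (by omega : 1 ≤ b)
  have hlog : 0 ≤ Real.log b := Real.log_nonneg hb1
  have hen : e ≤ n := he.trans hn
  have h2 := num_pow hr (show 1 ≤ b by omega) (n - e)
  rw [Nat.cast_sub hen] at h2
  have hkn : (k : ℝ) ≤ n := by exact_mod_cast hn
  have hek : (e : ℝ) ≤ k := by exact_mod_cast he
  calc (V.ncard : ℝ) ≤ (b : ℝ) ^ e * rMax (C (a : ℤ) * X ^ k : ℤ[X]) (b ^ (n - e)) := h1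
    _ ≤ (b : ℝ) ^ e * (K * (b : ℝ) ^ (n - e) *
        Real.exp (-(((n : ℝ) - e) * Real.log b) ^ c)) := by gcongr
    _ = K * (b : ℝ) ^ n * Real.exp (-(((n : ℝ) - e) * Real.log b) ^ c) := by
      have : (b : ℝ) ^ n = (b : ℝ) ^ e * (b : ℝ) ^ (n - e) := by
        rw [← pow_add]; congr 1; omega
      rw [this]; ring
    _ ≤ K * (b : ℝ) ^ n * Real.exp (-(((n : ℝ) - k) * Real.log b) ^ c) := by
      have h0 : 0 ≤ ((n : ℝ) - k) * Real.log b := mul_nonneg (by linarith) hlog
      gcongr

/-- The bound for contexts. -/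
theorem ctx_bound (hk : 1 ≤ k) (hb : 2 ≤ b) {K c : ℝ} (hK : 0 ≤ K) (hc : 0 ≤ c)
    (hr : ∀ N : ℕ, 1 ≤ N → (rMax (C (a : ℤ) * X ^ k : ℤ[X]) N : ℝ) ≤
      K * N * Real.exp (-(Real.log N) ^ c)) {A : Finset ℤ}
    (hA : DiffFree (C (a : ℤ) * X ^ k : ℤ[X]) A) (p y z : List (Fin b)) (i j n : ℕ)
    (hn : 2 * k ≤ n) (hij : i + j = n) (X' : Set (List (Fin b) × List (Fin b)))
    (hX : ∀ q ∈ X', (q.1.length = i ∧ q.2.length = j) ∧
      ((val b (p ++ (q.1 ++ y ++ q.2) ++ z) : ℕ) : ℤ) ∈ A) :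
    (X'.ncard : ℝ) ≤ K * (b : ℝ) ^ n * Real.exp (-(((n : ℝ) / 2 - k) * Real.log b) ^ c) := by
  have hb1 : (1 : ℝ) ≤ b := by exact_mod_cast (by omega : 1 ≤ b)
  have hlog : 0 ≤ Real.log b := Real.log_nonneg hb1
  have hXf : X'.Finite :=
    ((len_finite i).prod (len_finite j)).subset fun q hq => ⟨(hX q hq).1.1, (hX q hq).1.2⟩
  have hnk : (2 : ℝ) * k ≤ n := by exact_mod_cast hn
  have h0 : 0 ≤ ((n : ℝ) / 2 - k) * Real.log b := mul_nonneg (by linarith) hlog
  have hlen : ∀ m : ℕ, (((len_finite (α := Fin b) m).toFinset.card : ℕ) : ℝ) ≤ (b : ℝ) ^ m := by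
    intro m
    have h2 := ncard_len (b := b) m
    rw [Set.ncard_eq_toFinset_card _ (len_finite (α := Fin b) m)] at h2
    exact_mod_cast h2
  rcases le_total n (2 * i) with hi | hi
  · have hir : (n : ℝ) / 2 ≤ i := by
      have : (n : ℝ) ≤ 2 * i := by exact_mod_cast hi
      linarith
    have h1 := ncard_coverR hXf (len_finite (α := Fin b) j).toFinset
      (fun f => {q | q.2 = f}) (by
        intro q hq
        refine ⟨q.2, ?_, rfl⟩
        rw [Set.Finite.mem_toFinset]
        exact (hX q hq).1.2) (K * (b : ℝ) ^ i *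
          Real.exp (-(((n : ℝ) / 2 - k) * Real.log b) ^ c)) (by
        intro f hf
        have hsub : X' ∩ {q | q.2 = f} ⊆ (fun u => (u, f)) '' {u | (u, f) ∈ X'} := by
          rintro ⟨u, v⟩ ⟨hq, hqf⟩
          have hqf' : v = f := hqf
          subst hqf'
          exact ⟨u, hq, rfl⟩
        have hfin : {u | (u, f) ∈ X'}.Finite :=
          (len_finite (α := Fin b) i).subset fun u hu => (hX _ hu).1.1
        have h2 : (X' ∩ {q | q.2 = f}).ncard ≤ {u | (u, f) ∈ X'}.ncard :=
          (Set.ncard_le_ncard hsub (hfin.image _)).trans (Set.ncard_image_le hfin)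
        have h3 := word_bound (a := a) (k := k) hk hb hK hc hr hA p (y ++ f ++ z) i (by omega)
          {u | (u, f) ∈ X'} (by
            intro u hu
            obtain ⟨h4, h5⟩ := hX _ hu
            refine ⟨h4.1, ?_⟩
            have e1 : p ++ u ++ (y ++ f ++ z) = p ++ (u ++ y ++ f) ++ z := by
              simp [List.append_assoc]
            rw [e1]
            exact h5)
        have h4 : ((X' ∩ {q | q.2 = f}).ncard : ℝ) ≤ {u | (u, f) ∈ X'}.ncard := by
          exact_mod_cast h2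
        refine h4.trans (h3.trans ?_)
        gcongr)
    refine h1.trans ?_
    calc (((len_finite (α := Fin b) j).toFinset.card : ℕ) : ℝ) * (K * (b : ℝ) ^ i *
          Real.exp (-(((n : ℝ) / 2 - k) * Real.log b) ^ c))
        ≤ (b : ℝ) ^ j * (K * (b : ℝ) ^ i *
          Real.exp (-(((n : ℝ) / 2 - k) * Real.log b) ^ c)) := by
          gcongr
          exact hlen j
      _ = _ := by rw [← hij, pow_add]; ring
  · have hjr : (n : ℝ) / 2 ≤ j := by
      have : (n : ℝ) ≤ 2 * j := by exact_mod_cast (by omega : n ≤ 2 * j)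
      linarith
    have h1 := ncard_coverR hXf (len_finite (α := Fin b) i).toFinset
      (fun f => {q | q.1 = f}) (by
        intro q hq
        refine ⟨q.1, ?_, rfl⟩
        rw [Set.Finite.mem_toFinset]
        exact (hX q hq).1.1) (K * (b : ℝ) ^ j *
          Real.exp (-(((n : ℝ) / 2 - k) * Real.log b) ^ c)) (by
        intro f hf
        have hsub : X' ∩ {q | q.1 = f} ⊆ (fun u => (f, u)) '' {u | (f, u) ∈ X'} := by
          rintro ⟨u, v⟩ ⟨hq, hqf⟩
          have hqf' : u = f := hqf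
          subst hqf'
          exact ⟨v, hq, rfl⟩
        have hfin : {u | (f, u) ∈ X'}.Finite :=
          (len_finite (α := Fin b) j).subset fun u hu => (hX _ hu).1.2
        have h2 : (X' ∩ {q | q.1 = f}).ncard ≤ {u | (f, u) ∈ X'}.ncard :=
          (Set.ncard_le_ncard hsub (hfin.image _)).trans (Set.ncard_image_le hfin)
        have h3 := word_bound (a := a) (k := k) hk hb hK hc hr hA (p ++ f ++ y) z j (by omega)
          {u | (f, u) ∈ X'} (by
            intro u hu
            obtain ⟨h4, h5⟩ := hX _ hu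
            refine ⟨h4.2, ?_⟩
            have e1 : p ++ f ++ y ++ u ++ z = p ++ (f ++ y ++ u) ++ z := by
              simp [List.append_assoc]
            rw [e1]
            exact h5)
        have h4 : ((X' ∩ {q | q.1 = f}).ncard : ℝ) ≤ {u | (f, u) ∈ X'}.ncard := by
          exact_mod_cast h2
        refine h4.trans (h3.trans ?_)
        gcongr)
    refine h1.trans ?_
    calc (((len_finite (α := Fin b) i).toFinset.card : ℕ) : ℝ) * (K * (b : ℝ) ^ j *
          Real.exp (-(((n : ℝ) / 2 - k) * Real.log b) ^ c))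
        ≤ (b : ℝ) ^ i * (K * (b : ℝ) ^ j *
          Real.exp (-(((n : ℝ) / 2 - k) * Real.log b) ^ c)) := by
          gcongr
          exact hlen i
      _ = _ := by rw [← hij, pow_add]; ring

end Vale.Agent.P042.H352
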