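import Vale.Agent.P042.R2.H352.Ind
import Vale.Agent.P042.R2.H352.Loc

set_option autoImplicit false

/-!
# P042, context free grammars: the choice of the constants and the bound
-/

namespace Vale.Agent.P042.H352

open Set Vale.Agent.P001.R2.H953 Polynomial Vale.Agent.P042.H463

lemma exists_B (E1 E2 : ℝ) {c : ℝ} (hc : 0 < c) :
    ∃ B : ℝ, 20000 ≤ B ∧ E1 ≤ B ∧ E2 + 19 * Real.log (4 * B) ≤ (B / 4) ^ c := by
  have h1 := (isLittleO_log_rpow_atTop hc).def (show (0 : ℝ) < 1 / 38 by norm_num)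
  have h2 := (tendsto_rpow_atTop hc).eventually_ge_atTop (2 * (E2 + 19 * Real.log 16))
  have h3 := Filter.eventually_ge_atTop (max 20000 E1)
  obtain ⟨x, hx1, hx2, hx3⟩ := (h1.and (h2.and h3)).exists
  have hx4 : 20000 ≤ x := (le_max_left _ _).trans hx3
  have hx5 : E1 ≤ x := (le_max_right _ _).trans hx3
  have hx0 : 0 < x := by linarith
  refine ⟨4 * x, by linarith, by linarith, ?_⟩
  have e1 : 4 * x / 4 = x := by ring
  have e2 : Real.log (4 * (4 * x)) = Real.log 16 + Real.log x := by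
    rw [← Real.log_mul (by norm_num) hx0.ne']
    congr 1; ring
  rw [e1, e2]
  have hr0 : 0 ≤ x ^ c := Real.rpow_nonneg hx0.le _
  have h4 : Real.log x ≤ 1 / 38 * x ^ c := by
    refine (le_abs_self _).trans ?_
    have : ‖Real.log x‖ ≤ 1 / 38 * ‖x ^ c‖ := hx1
    rwa [Real.norm_eq_abs, Real.norm_eq_abs, abs_of_nonneg hr0] at this
  linarith

lemma base_num {S m n η K X : ℝ} (hS : 1 ≤ S) (hm : 20000 ≤ m) (hn : m ≤ n)
    (hn2 : n ≤ 5 * m + 5) (hη : η = Real.log (S * m) / (2 * m)) (hK : 1 ≤ K)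
    (hX : Real.log K + 80 + 19 * Real.log (S * m) ≤ X) :
    K * Real.exp (-X) ≤ Real.exp (-(η * n)) / (S * n) ^ 16 := by
  have hm0 : 0 < m := by linarith
  have hn0 : 0 < n := by linarith
  have hSm : 1 ≤ S * m := by nlinarith
  have hSn : 0 < S * n := by positivity
  have hl0 : 0 ≤ Real.log (S * m) := Real.log_nonneg hSm
  have h1 : Real.log (S * n) ≤ 5 + Real.log (S * m) := by
    have e1 : S * n ≤ 6 * (S * m) := by nlinarith
    have e2 := Real.log_le_log hSn e1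
    rw [Real.log_mul (x := 6) (y := S * m) (by norm_num) (by positivity)] at e2
    have e3 := Real.log_le_sub_one_of_pos (show (0 : ℝ) < 6 by norm_num)
    linarith
  have h2 : η * n ≤ 3 * Real.log (S * m) := by
    have e1 : η * m = Real.log (S * m) / 2 := by
      rw [hη]; field_simp
    have hη0 : 0 ≤ η := by rw [hη]; positivity
    have e2 : n ≤ 6 * m := by linarith
    calc η * n ≤ η * (6 * m) := by gcongr
      _ = 6 * (η * m) := by ring
      _ = 3 * Real.log (S * m) := by rw [e1]; ring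
  rw [le_div_iff₀ (by positivity)]
  have e1 : (S * n) ^ 16 = Real.exp (16 * Real.log (S * n)) := by
    have : (16 : ℝ) * Real.log (S * n) = ((16 : ℕ) : ℝ) * Real.log (S * n) := by norm_num
    rw [this, Real.exp_nat_mul, Real.exp_log hSn]
  have e2 : K = Real.exp (Real.log K) := (Real.exp_log (by linarith)).symm
  rw [e1, e2, ← Real.exp_add, ← Real.exp_add]
  apply Real.exp_le_exp.2
  linarith

lemma num_X {K B M S W ε β c m : ℝ} (hB1 : 20000 ≤ B) (hM : M = B + 1) (hK : 0 ≤ Real.log K)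
    (hB3 : Real.log K + 80 + 19 * (2 + ε) + 19 * Real.log (4 * B) ≤ (B / 4) ^ c) (hε : 0 < ε)
    (hc0 : 0 < c) (hce1 : (1 + ε) * c = 1) (hW1 : 1 ≤ W) (hβ2 : 1 / 2 ≤ β)
    (hm0 : 0 < m) (hl1 : B * W ^ (1 + ε) ≤ m * β) (hl2 : m * β ≤ M * W ^ (1 + ε))
    (hlm : Real.log (S * m) = W - 1 + Real.log m) :
    Real.log K + 80 + 19 * Real.log (S * m) ≤ (m * β / 4) ^ c := by
  have hWp : 0 < W := by linarith
  have hBp : 0 < B := by linarith
  have hWe : 0 < W ^ (1 + ε) := Real.rpow_pos_of_pos hWp _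
  have e1 : (B / 4) ^ c * W ≤ (m * β / 4) ^ c := by
    have e2 : (B / 4 * W ^ (1 + ε)) ^ c ≤ (m * β / 4) ^ c := by
      refine Real.rpow_le_rpow (by positivity) ?_ hc0.le
      linarith
    rwa [Real.mul_rpow (by positivity) hWe.le, ← Real.rpow_mul hWp.le, hce1,
      Real.rpow_one] at e2
  refine le_trans ?_ e1
  have e3 : Real.log m ≤ Real.log (4 * B) + (1 + ε) * W := by
    have e4 : m ≤ 4 * B * W ^ (1 + ε) := by
      have e5 : m * (1 / 2) ≤ M * W ^ (1 + ε) :=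
        le_trans (by gcongr) hl2
      have e6 : M * W ^ (1 + ε) ≤ 2 * B * W ^ (1 + ε) := by
        gcongr
        linarith
      linarith
    have e7 := Real.log_le_log hm0 e4
    rw [Real.log_mul (by positivity) hWe.ne', Real.log_rpow hWp] at e7
    have e8 := Real.log_le_sub_one_of_pos hWp
    have e9 : (1 + ε) * Real.log W ≤ (1 + ε) * W := by
      gcongr
      linarith
    linarith
  have e9 : 0 ≤ Real.log (4 * B) := Real.log_nonneg (by linarith)
  rw [hlm]
  have e10 : (Real.log K + 80 + 19 * (2 + ε) + 19 * Real.log (4 * B)) * W ≤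
      (B / 4) ^ c * W := by gcongr
  refine le_trans ?_ e10
  have e11 : (Real.log K + 80 + 19 * Real.log (4 * B)) * 1 ≤
      (Real.log K + 80 + 19 * Real.log (4 * B)) * W := by gcongr
  have e12 : 0 ≤ ε * W := by positivity
  linarith

variable {a k : ℕ}

/-- Words longer than the base length. -/
theorem cfg_long (hk : 1 ≤ k) {b : ℕ} (hb : 2 ≤ b) {K c : ℝ} (hK1 : 1 ≤ K) (hc0 : 0 ≤ c)
    (hr : ∀ N : ℕ, 1 ≤ N → (rMax (C (a : ℤ) * X ^ k : ℤ[X]) N : ℝ) ≤
      K * N * Real.exp (-(Real.log N) ^ c)) {A : Finset ℤ}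
    (hfree : DiffFree (C (a : ℤ) * X ^ k : ℤ[X]) A) (g : ContextFreeGrammar (Fin b))
    (s S η : ℝ) (m : ℕ) (hsi : ((items g).card : ℝ) ≤ s) (hsr : (g.rules.card : ℝ) ≤ s)
    (hs1 : 1 ≤ s) (hsS : s ≤ S) (hm2' : 20000 ≤ m) (hm4 : 4 * k ≤ m)
    (hη : η = Real.log (S * m) / (2 * m))
    (hX : Real.log K + 80 + 19 * Real.log (S * m) ≤ (m * Real.log b / 4) ^ c)
    (T : Set (List (Fin b))) (hTd : T = {w | ((val b w : ℕ) : ℤ) ∈ A}) (L : ℕ) (hL : m ≤ L) :
    WB g T L ((b : ℝ) ^ L * Real.exp (-(η * L)) / (S * L) ^ 16) := by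
  have hm2 : (20000 : ℝ) ≤ m := by exact_mod_cast hm2'
  have hm0 : (0 : ℝ) < m := by linarith
  have hS1 : 1 ≤ S := hs1.trans hsS
  have hKp : 0 < K := by linarith
  have hb1 : (1 : ℝ) ≤ b := by exact_mod_cast (by omega : 1 ≤ b)
  obtain ⟨β, hβ⟩ : ∃ β : ℝ, β = Real.log b := ⟨_, rfl⟩
  have hβ0 : 0 ≤ β := by rw [hβ]; exact Real.log_nonneg hb1
  rw [← hβ] at hX
  have hSm : 1 ≤ S * m := by nlinarith
  have hlSm : 0 ≤ Real.log (S * m) := Real.log_nonneg hSm
  have hη0 : 0 ≤ η := by rw [hη]; positivity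
  have hηm : 2 * (η * m) = Real.log (S * m) := by
    rw [hη]; field_simp
  have hbase : ∀ n : ℕ, m ≤ n → n ≤ 5 * m + 5 → ∀ x : ℝ, (m * β / 4) ^ c ≤ x →
      K * (b : ℝ) ^ n * Real.exp (-x) ≤
        (b : ℝ) ^ n * Real.exp (-(η * n)) / (S * n) ^ 16 := by
    intro n hn1 hn2 x hx
    have e1 := base_num (S := S) (m := m) (n := n) hS1 hm2 (by exact_mod_cast hn1)
      (by exact_mod_cast hn2) hη hK1 (hX.trans hx)
    calc K * (b : ℝ) ^ n * Real.exp (-x) = (b : ℝ) ^ n * (K * Real.exp (-x)) := by ring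
      _ ≤ (b : ℝ) ^ n * (Real.exp (-(η * n)) / (S * n) ^ 16) := by gcongr
      _ = _ := by ring
  have hkr : (4 : ℝ) * k ≤ m := by exact_mod_cast hm4
  refine (main_ind (by omega) g T s S η m hsi hsr hs1 hsS hm2' hη0
    (by rw [hηm, Real.exp_log (by linarith)]) ?_ L hL).1
  intro n hn1 hn2
  have hnr : (m : ℝ) ≤ n := by exact_mod_cast hn1
  have hcmp : ∀ y : ℝ, (m : ℝ) / 4 ≤ y → (m * β / 4) ^ c ≤ (y * β) ^ c := by
    intro y hy
    refine Real.rpow_le_rpow (by positivity) ?_ hc0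
    calc (m : ℝ) * β / 4 = m / 4 * β := by ring
      _ ≤ y * β := by gcongr
  constructor
  · intro γ hγ p z hV
    have h1 := word_bound (a := a) (k := k) hk hb hKp.le hc0 hr hfree p z n (by omega)
      (Mid g γ n) (by
        intro v hv
        refine ⟨hv.1, ?_⟩
        have := hV v hv
        rw [hTd] at this
        exact this)
    rw [← hβ] at h1
    exact h1.trans (hbase n hn1 hn2 _ (hcmp _ (by linarith)))
  · intro i j hij γ γ' hγ p y z hV
    have h1 := ctx_bound (a := a) (k := k) hk hb hKp.le hc0 hr hfree p y z i j n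
      (by omega) hij (Ks g γ γ' i j) (by
        intro q hq
        refine ⟨hq.1, ?_⟩
        have := hV q hq
        rw [hTd] at this
        exact this)
    rw [← hβ] at h1
    refine h1.trans ((hbase n hn1 hn2 _ (hcmp _ (by linarith))).trans ?_)
    have hSn : 1 ≤ S * n := by nlinarith
    have h2 : (S * n) ^ 8 ≤ (S * n) ^ 16 := pow_le_pow_right₀ hSn (by norm_num)
    have h3 : 0 < (S * n) ^ 8 := by positivity
    exact div_le_div_of_nonneg_left (by positivity) h3 h2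

/-- The values of the words of length `L`. -/
theorem cfg_card {b L : ℕ} (g : ContextFreeGrammar (Fin b)) (A : Finset ℤ)
    (hA : ∀ x : ℤ, x ∈ A ↔ ∃ w ∈ g.language, w.length = L ∧
        x = ((Nat.ofDigits b (w.map Fin.val) : ℕ) : ℤ)) {F : ℝ}
    (hW : WB g {w | ((val b w : ℕ) : ℤ) ∈ A} L F) : (A.card : ℝ) ≤ F := by
  have hAc : A.card ≤ (Mid g [Symbol.nonterminal g.initial] L).ncard := by
    rw [← Set.ncard_coe_finset]
    have hsub : (A : Set ℤ) ⊆
        (fun w => ((val b w : ℕ) : ℤ)) '' Mid g [Symbol.nonterminal g.initial] L := by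
      intro x hx
      rw [Finset.mem_coe, hA] at hx
      obtain ⟨w, hw, hwl, hxw⟩ := hx
      exact ⟨w, ⟨hwl, (mem_language_iff_yield g w).1 hw⟩, hxw.symm⟩
    exact (Set.ncard_le_ncard hsub ((mid_fin g _ L).image _)).trans
      (Set.ncard_image_le (mid_fin g _ L))
  have h1 := hW [Symbol.nonterminal g.initial] (Or.inr (List.suffix_refl _)) [] [] (by
    intro w hw
    show ((val b ([] ++ w ++ []) : ℕ) : ℤ) ∈ A
    rw [List.nil_append, List.append_nil, hA]
    exact ⟨w, (mem_language_iff_yield g w).2 hw.2, hw.1, rfl⟩)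
  have h2 : (A.card : ℝ) ≤ (Mid g [Symbol.nonterminal g.initial] L).ncard := by
    exact_mod_cast hAc
  exact h2.trans h1

lemma num_end {M W ε β η S : ℝ} {m : ℕ} (hM1 : 1 ≤ M) (hW1 : 1 ≤ W) (hm0 : (0 : ℝ) < m)
    (hη : η = Real.log (S * m) / (2 * m)) (hl2 : m * β ≤ M * W ^ (1 + ε))
    (hlm : Real.log (S * m) = W - 1 + Real.log m) (hlogm1 : 1 ≤ Real.log m) :
    1 / (4 * M) / W ^ ε * β ≤ η := by
  have hWp : 0 < W := by linarith
  have hMp : 0 < M := by linarith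
  have hWε : 0 < W ^ ε := Real.rpow_pos_of_pos hWp _
  have hWe2 : W ^ (1 + ε) = W * W ^ ε := by
    rw [Real.rpow_add hWp, Real.rpow_one]
  rw [hη, le_div_iff₀ (by positivity)]
  have e1 : m * β ≤ M * (W * W ^ ε) := by rw [← hWe2]; exact hl2
  have e2 : 1 / (4 * M) / W ^ ε * β * (2 * m) = (m * β) / (2 * M * W ^ ε) := by
    field_simp; ring
  rw [e2, div_le_iff₀ (by positivity)]
  have e3 : W / 2 ≤ Real.log (S * m) := by rw [hlm]; linarith
  calc m * β ≤ M * (W * W ^ ε) := e1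
    _ = W / 2 * (2 * M * W ^ ε) := by ring
    _ ≤ Real.log (S * m) * (2 * M * W ^ ε) := by gcongr

lemma num_exp4 {M W ε c : ℝ} (hM1 : 1 ≤ M) (hW1 : 1 ≤ W) (hc0 : 0 < c) :
    1 / (4 * M) / W ^ ε ≤ M ^ (c - 1) / W ^ ε / 4 := by
  have hWp : 0 < W := by linarith
  have hMp : 0 < M := by linarith
  have hWε : 0 < W ^ ε := Real.rpow_pos_of_pos hWp _
  have h5 : M ^ (-1 : ℝ) ≤ M ^ (c - 1) :=
    Real.rpow_le_rpow_of_exponent_le hM1 (by linarith)
  rw [Real.rpow_neg_one] at h5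
  calc 1 / (4 * M) / W ^ ε = M⁻¹ / W ^ ε / 4 := by field_simp
    _ ≤ M ^ (c - 1) / W ^ ε / 4 := by gcongr

/-- The set of the values of the words of length `L` of a context free grammar. -/
theorem cfg_bound (hk : 1 ≤ k)
    (H : ∀ c : ℝ, c < 1 → ∃ K : ℝ, 0 < K ∧ ∀ N : ℕ, 1 ≤ N →
      (rMax (C (a : ℤ) * X ^ k : ℤ[X]) N : ℝ) ≤ K * N * Real.exp (-(Real.log N) ^ c))
    {ε : ℝ} (hε : 0 < ε) :
    ∃ δ K : ℝ, 0 < δ ∧ 0 < K ∧ ∀ (b L s : ℕ) (g : ContextFreeGrammar (Fin b)) (A : Finset ℤ),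
      2 ≤ b → ∑ r ∈ g.rules, (r.output.length + 1) + 2 ≤ s →
      (∀ x : ℤ, x ∈ A ↔ ∃ w ∈ g.language, w.length = L ∧
        x = ((Nat.ofDigits b (w.map Fin.val) : ℕ) : ℤ)) →
      DiffFree (C (a : ℤ) * X ^ k : ℤ[X]) A →
      (A.card : ℝ) ≤ K * ((b : ℝ) ^ L) ^ (1 - δ / (1 + Real.log (b * s)) ^ ε) := by
  have h1ε : 0 < 1 + ε := by linarith
  obtain ⟨c, hc⟩ : ∃ c : ℝ, c = 1 / (1 + ε) := ⟨_, rfl⟩
  have hc0 : 0 < c := by rw [hc]; positivity
  have hc1 : c < 1 := by rw [hc, div_lt_one h1ε]; linarith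
  have hce1 : (1 + ε) * c = 1 := by rw [hc]; field_simp
  have hce : (1 + ε) * (c - 1) = -ε := by rw [mul_sub, hce1]; ring
  obtain ⟨K0, hK0, hr0⟩ := H c hc1
  obtain ⟨K, hK⟩ : ∃ K : ℝ, K = max K0 1 := ⟨_, rfl⟩
  have hK1 : 1 ≤ K := by rw [hK]; exact le_max_right _ _
  have hKp : 0 < K := by linarith
  have hr : ∀ N : ℕ, 1 ≤ N → (rMax (C (a : ℤ) * X ^ k : ℤ[X]) N : ℝ) ≤
      K * N * Real.exp (-(Real.log N) ^ c) := by
    intro N hN
    refine (hr0 N hN).trans ?_
    have h1 : K0 ≤ K := by rw [hK]; exact le_max_left _ _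
    gcongr
  have hlogK : 0 ≤ Real.log K := Real.log_nonneg hK1
  obtain ⟨B, hB1, hB2, hB3⟩ := exists_B (4 * k) (Real.log K + 80 + 19 * (2 + ε)) hc0
  have hBp : 0 < B := by linarith
  obtain ⟨M, hM⟩ : ∃ M : ℝ, M = B + 1 := ⟨_, rfl⟩
  have hMp : 0 < M := by linarith
  have hM1 : 1 ≤ M := by linarith
  refine ⟨1 / (4 * M), K, by positivity, hKp, ?_⟩
  intro b L s g A hb hs hA hfree
  have hb1 : 1 ≤ b := by omega
  have hbr : (2 : ℝ) ≤ b := by exact_mod_cast hb
  have hbp : (0 : ℝ) < b := by linarith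
  have hs2 : (2 : ℝ) ≤ s := by exact_mod_cast (by omega : 2 ≤ s)
  obtain ⟨S, hS⟩ : ∃ S : ℝ, S = b * s := ⟨_, rfl⟩
  have hsS : (s : ℝ) ≤ S := by
    rw [hS]; exact le_mul_of_one_le_left (by linarith) (by linarith)
  have hS1 : 1 ≤ S := by linarith
  have hS0 : 0 < S := by linarith
  obtain ⟨β, hβ⟩ : ∃ β : ℝ, β = Real.log b := ⟨_, rfl⟩
  have hβ2 : 1 / 2 ≤ β := by
    rw [hβ]
    have e1 := Real.log_le_log (by norm_num : (0 : ℝ) < 2) hbr
    have e2 := Real.log_two_gt_d9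
    linarith
  have hβp : 0 < β := by linarith
  obtain ⟨W, hW⟩ : ∃ W : ℝ, W = 1 + Real.log (b * s) := ⟨_, rfl⟩
  have hWS : W = 1 + Real.log S := by rw [hW, hS]
  have hW' : W = 1 + β + Real.log s := by
    rw [hW, Real.log_mul hbp.ne' (by linarith), hβ]; ring
  have hlogs : 0 ≤ Real.log s := Real.log_nonneg (by linarith)
  have hW1 : 1 ≤ W := by linarith
  have hWp : 0 < W := by linarith
  have hβW : β ≤ W := by linarith
  rw [← hW]
  have hWe : 0 < W ^ (1 + ε) := Real.rpow_pos_of_pos hWp _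
  have hWε : 0 < W ^ ε := Real.rpow_pos_of_pos hWp _
  have hWe1 : W ≤ W ^ (1 + ε) := by
    have h5 : W ^ (1 : ℝ) ≤ W ^ (1 + ε) := Real.rpow_le_rpow_of_exponent_le hW1 (by linarith)
    rwa [Real.rpow_one] at h5
  have hN0 : (0 : ℝ) < (b : ℝ) ^ L := by positivity
  have hgoal : ((b : ℝ) ^ L) ^ (1 - 1 / (4 * M) / W ^ ε) =
      (b : ℝ) ^ L * Real.exp (-(1 / (4 * M) / W ^ ε * (L * β))) := by
    rw [Real.rpow_sub hN0, Real.rpow_one, div_eq_mul_inv ((b : ℝ) ^ L), ← Real.rpow_neg hN0.le,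
      Real.rpow_def_of_pos hN0, Real.log_pow, hβ]
    congr 2
    ring
  rw [hgoal, ← mul_assoc]
  obtain ⟨m, hm1, _, hl1, hl2⟩ := num_block (k := 1) (M := M) le_rfl hβp hβW hW1 hBp hε
    (by rw [hM]; push_cast; ring)
  have hm0 : (0 : ℝ) < m := by exact_mod_cast hm1
  have hBm : B ≤ m := by
    have h1 : B * W ^ (1 + ε) ≤ m * W ^ (1 + ε) := by
      refine hl1.trans ?_
      gcongr
      linarith
    exact le_of_mul_le_mul_right h1 hWe
  have hm2 : (20000 : ℝ) ≤ m := hB1.trans hBm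
  have hm2' : 20000 ≤ m := by exact_mod_cast hm2
  have hm4 : 4 * k ≤ m := by exact_mod_cast hB2.trans hBm
  by_cases hL : L < m
  · -- short words
    have h1 : A.card ≤ rMax (C (a : ℤ) * X ^ k : ℤ[X]) (b ^ L) := by
      refine card_le_rMax' hfree _ ?_
      intro x hx
      rw [hA] at hx
      obtain ⟨w, _, hwl, rfl⟩ := hx
      have h2 := val_lt hb w
      rw [hwl] at h2
      exact ⟨by positivity, by exact_mod_cast h2⟩
    have h2 : (A.card : ℝ) ≤ rMax (C (a : ℤ) * X ^ k : ℤ[X]) (b ^ L) := by exact_mod_cast h1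
    refine h2.trans ((num_pow hr hb1 L).trans ?_)
    rw [← hβ]
    apply mul_le_mul_of_nonneg_left _ (by positivity)
    apply Real.exp_le_exp.2
    apply neg_le_neg
    obtain ⟨l, hl⟩ : ∃ l : ℝ, l = M * W ^ (1 + ε) := ⟨_, rfl⟩
    have hl0 : 0 < l := by rw [hl]; positivity
    have hkey := num_len hMp hWp hc1 hce hl0 (le_of_eq hl)
    have hθ0 : 0 ≤ M ^ (c - 1) / W ^ ε := by positivity
    have h3 := num_short (L := L) (β := β) hc1 hβp (l := l) (by
      rw [hl]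
      refine le_trans ?_ hl2
      have : (L : ℝ) ≤ m := by exact_mod_cast hL.le
      gcongr) hkey hθ0
    refine le_trans ?_ h3
    have h4 := num_exp4 (ε := ε) hM1 hW1 hc0
    gcongr
  · -- long words
    rw [not_lt] at hL
    obtain ⟨η, hη⟩ : ∃ η : ℝ, η = Real.log (S * m) / (2 * m) := ⟨_, rfl⟩
    have hm1r : (1 : ℝ) ≤ m := by exact_mod_cast hm1
    have hSm : 1 ≤ S * m := one_le_mul_of_one_le_of_one_le hS1 hm1r
    have hlm : Real.log (S * m) = W - 1 + Real.log m := by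
      rw [Real.log_mul hS0.ne' hm0.ne', hWS]; ring
    have hlogm1 : 1 ≤ Real.log m := by
      rw [Real.le_log_iff_exp_le hm0]
      have := Real.exp_one_lt_d9
      linarith
    have hlSm : 0 ≤ Real.log (S * m) := Real.log_nonneg hSm
    have hη0 : 0 ≤ η := by rw [hη]; positivity
    have hηm : 2 * (η * m) = Real.log (S * m) := by
      rw [hη]; field_simp
    have hX := num_X (S := S) hB1 hM hlogK hB3 hε hc0 hce1 hW1 hβ2 hm0 hl1 hl2 hlm
    rw [hβ] at hX
    have hmain := cfg_long hk hb hK1 hc0.le hr hfree g s S η m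
      (by
        have h1 := items_card g
        have h2 : (items g).card ≤ s := h1.trans hs
        exact_mod_cast h2)
      (by
        have h1 : g.rules.card ≤ s := by
          refine le_trans ?_ hs
          have h2 : g.rules.card ≤ ∑ r ∈ g.rules, (r.output.length + 1) := by
            rw [Finset.card_eq_sum_ones]
            exact Finset.sum_le_sum fun r _ => Nat.le_add_left _ _
          omega
        exact_mod_cast h1)
      (by linarith) hsS hm2' hm4 hη hX _ rfl L hL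
    refine (cfg_card g A hA hmain).trans ?_
    have hLm : (m : ℝ) ≤ L := by exact_mod_cast hL
    have hSL : 1 ≤ (S * L) ^ 16 := one_le_pow₀ (one_le_mul_of_one_le_of_one_le hS1 (hm1r.trans hLm))
    refine (div_le_self (by positivity) hSL).trans ?_
    have h3 := num_end (ε := ε) hM1 hW1 hm0 hη hl2 hlm hlogm1
    have h4 : 1 / (4 * M) / W ^ ε * (L * β) ≤ η * L := by
      calc 1 / (4 * M) / W ^ ε * (L * β) = (1 / (4 * M) / W ^ ε * β) * L := by ring
        _ ≤ η * L := mul_le_mul_of_nonneg_right h3 (Nat.cast_nonneg _)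
    have h5 : Real.exp (-(η * L)) ≤ Real.exp (-(1 / (4 * M) / W ^ ε * (L * β))) :=
      Real.exp_le_exp.2 (neg_le_neg h4)
    have h6 : (b : ℝ) ^ L ≤ K * (b : ℝ) ^ L := le_mul_of_one_le_left hN0.le hK1
    exact mul_le_mul h6 h5 (Real.exp_pos _).le (by positivity)

end Vale.Agent.P042.H352
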