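import Vale.Agent.P042.R2.H352.Main

set_option autoImplicit false

/-!
# P042, context free grammars: the bound for words of one length, with the size `1 + ∑ (|output| + 1)`
-/

namespace Vale.Agent.P042.H352

open Polynomial Vale.Agent.P042

variable {a k : ℕ}

/-- The values of the words of length `L` of a context free grammar, which may depend on `L`. -/
theorem cfg_one (hk : 1 ≤ k)
    (H : ∀ c : ℝ, c < 1 → ∃ K : ℝ, 0 < K ∧ ∀ N : ℕ, 1 ≤ N →
      (rMax (C (a : ℤ) * X ^ k : ℤ[X]) N : ℝ) ≤ K * N * Real.exp (-(Real.log N) ^ c))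
    {ε : ℝ} (hε : 0 < ε) :
    ∃ δ K : ℝ, 0 < δ ∧ 0 < K ∧ ∀ (b L : ℕ) (g : ContextFreeGrammar (Fin b)) (A : Finset ℤ),
      2 ≤ b →
      (∀ x : ℤ, x ∈ A ↔ ∃ w ∈ g.language, w.length = L ∧
        x = ((Nat.ofDigits b (w.map Fin.val) : ℕ) : ℤ)) →
      DiffFree (C (a : ℤ) * X ^ k : ℤ[X]) A →
      (A.card : ℝ) ≤ K * ((b : ℝ) ^ L) ^ (1 - δ / (1 + Real.log
        (b * ((1 + ∑ r ∈ g.rules, (r.output.length + 1) : ℕ) : ℝ))) ^ ε) := by
  obtain ⟨δ₀, K, hδ₀, hK, h⟩ := cfg_bound hk H hε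
  refine ⟨δ₀ / 2 ^ ε, K, by positivity, hK, ?_⟩
  intro b L g A hb hA hfree
  obtain ⟨q, hq⟩ : ∃ q : ℕ, q = 1 + ∑ r ∈ g.rules, (r.output.length + 1) := ⟨_, rfl⟩
  rw [← hq]
  have h1 := h b L (2 * q) g A hb (by omega) hA hfree
  refine h1.trans ?_
  have hb1 : (1 : ℝ) ≤ b := by exact_mod_cast (by omega : 1 ≤ b)
  have hq1 : (1 : ℝ) ≤ q := by exact_mod_cast (by omega : 1 ≤ q)
  have hbq : (1 : ℝ) ≤ b * q := one_le_mul_of_one_le_of_one_le hb1 hq1
  have hlog0 : 0 ≤ Real.log (b * q) := Real.log_nonneg hbq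
  have hlog : Real.log (b * ((2 * q : ℕ) : ℝ)) = Real.log 2 + Real.log (b * q) := by
    rw [← Real.log_mul (by norm_num) (by positivity)]
    congr 1
    push_cast
    ring
  have hl2 : Real.log 2 ≤ 1 := by
    have := Real.log_two_lt_d9
    linarith
  have hl20 : 0 ≤ Real.log 2 := Real.log_nonneg (by norm_num)
  have hθ : δ₀ / 2 ^ ε / (1 + Real.log (b * q)) ^ ε ≤
      δ₀ / (1 + Real.log (b * ((2 * q : ℕ) : ℝ))) ^ ε := by
    rw [div_div, ← Real.mul_rpow (by norm_num) (by linarith)]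
    refine div_le_div_of_nonneg_left hδ₀.le ?_ ?_
    · exact Real.rpow_pos_of_pos (by rw [hlog]; linarith) _
    · exact Real.rpow_le_rpow (by rw [hlog]; linarith) (by rw [hlog]; linarith) hε.le
  have hbL : (1 : ℝ) ≤ (b : ℝ) ^ L := one_le_pow₀ hb1
  exact mul_le_mul_of_nonneg_left (Real.rpow_le_rpow_of_exponent_le hbL (by linarith)) hK.le

end Vale.Agent.P042.H352
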