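import Vale.Agent.P001.R2.H953.Cx

set_option autoImplicit false

/-!
# P042, context free grammars: counting words and contexts by balanced cuts, product bounds
-/

namespace Vale.Agent.P042.H352

open Set Vale.Agent.P001.R2.H953

theorem ncard_coverR {ι β : Type*} {X : Set β} (hX : X.Finite) (I : Finset ι) (F : ι → Set β)
    (hcov : ∀ x ∈ X, ∃ t ∈ I, x ∈ F t) (K : ℝ)
    (hK : ∀ t ∈ I, ((X ∩ F t).ncard : ℝ) ≤ K) :
    (X.ncard : ℝ) ≤ I.card * K := by
  have h1 : X ⊆ ⋃ t ∈ I, (X ∩ F t) := by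
    intro x hx
    obtain ⟨t, ht, hxt⟩ := hcov x hx
    exact Set.mem_biUnion ht ⟨hx, hxt⟩
  have h2 : (⋃ t ∈ I, (X ∩ F t)).Finite := hX.subset (Set.iUnion₂_subset fun t _ => fun x hx => hx.1)
  have h3 : X.ncard ≤ ∑ t ∈ I, (X ∩ F t).ncard :=
    (Set.ncard_le_ncard h1 h2).trans (Finset.set_ncard_biUnion_le _ _)
  have h4 : (X.ncard : ℝ) ≤ ∑ t ∈ I, ((X ∩ F t).ncard : ℝ) := by exact_mod_cast h3
  refine h4.trans ?_
  refine (Finset.sum_le_card_nsmul _ _ K hK).trans (le_of_eq ?_)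
  rw [nsmul_eq_mul]

variable {b : ℕ}

theorem ncard_len (n : ℕ) : {w : List (Fin b) | w.length = n}.ncard ≤ b ^ n := by
  have h2 : {w : List (Fin b) | w.length = n} ⊆
      Set.range (fun f : Fin n → Fin b => List.ofFn f) := by
    rintro w hw
    have hw' : w.length = n := hw
    subst hw'
    exact ⟨fun i => w.get i, List.ofFn_get w⟩
  refine (Set.ncard_le_ncard h2 (Set.finite_range _)).trans ?_
  rw [← Set.image_univ]
  refine (Set.ncard_image_le Set.finite_univ).trans ?_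
  rw [Set.ncard_univ, Nat.card_eq_fintype_card, Fintype.card_fun, Fintype.card_fin,
    Fintype.card_fin]

theorem mid_fin (g : ContextFreeGrammar (Fin b)) (β : List (Symbol (Fin b) g.NT))
    (n : ℕ) : (Mid g β n).Finite := (len_finite n).subset fun _ h => h.1

theorem ks_fin (g : ContextFreeGrammar (Fin b)) (β γ : List (Symbol (Fin b) g.NT))
    (i j : ℕ) : (Ks g β γ i j).Finite :=
  ((len_finite i).prod (len_finite j)).subset fun _ h => ⟨h.1.1, h.1.2⟩

theorem gs_fin (g : ContextFreeGrammar (Fin b)) (β γ : List (Symbol (Fin b) g.NT))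
    (i j : ℕ) : (Gs g β γ i j).Finite :=
  ((len_finite i).prod (len_finite j)).subset fun _ h => ⟨h.1.1, h.1.2⟩

/-- Words of length `n` derived from items, in a block inside `T`: at most `F`. -/
def WB (g : ContextFreeGrammar (Fin b)) (T : Set (List (Fin b))) (n : ℕ) (F : ℝ) : Prop :=
  ∀ β, IsItem g β → ∀ p z : List (Fin b), (∀ w ∈ Mid g β n, p ++ w ++ z ∈ T) →
    ((Mid g β n).ncard : ℝ) ≤ F

/-- Contexts of total length `t`: at most `F`. -/
def KB (g : ContextFreeGrammar (Fin b)) (T : Set (List (Fin b))) (t : ℕ) (F : ℝ) : Prop :=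
  ∀ i j, i + j = t → ∀ β γ, IsItem g β → ∀ p y z : List (Fin b),
    (∀ q ∈ Ks g β γ i j, p ++ (q.1 ++ y ++ q.2) ++ z ∈ T) → ((Ks g β γ i j).ncard : ℝ) ≤ F

/-- Steps of total length `t`: at most `F`. -/
def GB (g : ContextFreeGrammar (Fin b)) (T : Set (List (Fin b))) (t : ℕ) (F : ℝ) : Prop :=
  ∀ i j, i + j = t → ∀ β γ, IsItem g β → ∀ p y z : List (Fin b),
    (∀ q ∈ Gs g β γ i j, p ++ (q.1 ++ y ++ q.2) ++ z ∈ T) → ((Gs g β γ i j).ncard : ℝ) ≤ F

theorem WB.mono {g : ContextFreeGrammar (Fin b)} {T : Set (List (Fin b))} {n : ℕ} {F G : ℝ}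
    (h : WB g T n F) (hFG : F ≤ G) : WB g T n G :=
  fun β hβ p z hT => (h β hβ p z hT).trans hFG

theorem KB.mono {g : ContextFreeGrammar (Fin b)} {T : Set (List (Fin b))} {n : ℕ} {F G : ℝ}
    (h : KB g T n F) (hFG : F ≤ G) : KB g T n G :=
  fun i j hij β γ hβ p y z hT => (h i j hij β γ hβ p y z hT).trans hFG

theorem GB.mono {g : ContextFreeGrammar (Fin b)} {T : Set (List (Fin b))} {n : ℕ} {F G : ℝ}
    (h : GB g T n F) (hFG : F ≤ G) : GB g T n G :=
  fun i j hij β γ hβ p y z hT => (h i j hij β γ hβ p y z hT).trans hFG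

theorem pair_card (X : Set (List (Fin b) × List (Fin b))) (i j : ℕ)
    (hX : ∀ q ∈ X, q.1.length = i ∧ q.2.length = j) : (X.ncard : ℝ) ≤ (b : ℝ) ^ (i + j) := by
  have h : X.ncard ≤ b ^ (i + j) := by
    refine (Set.ncard_le_ncard (t := {w : List (Fin b) | w.length = i} ×ˢ
      {w : List (Fin b) | w.length = j}) (fun q hq => ⟨(hX q hq).1, (hX q hq).2⟩)
      ((len_finite i).prod (len_finite j))).trans ?_
    rw [Set.ncard_prod]
    refine (Nat.mul_le_mul (ncard_len i) (ncard_len j)).trans ?_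
    rw [← pow_add]
  exact_mod_cast h

theorem WB_triv (g : ContextFreeGrammar (Fin b)) (T : Set (List (Fin b))) (n : ℕ) :
    WB g T n ((b : ℝ) ^ n) := by
  intro β _ p z _
  have h : (Mid g β n).ncard ≤ b ^ n :=
    (Set.ncard_le_ncard (t := {w : List (Fin b) | w.length = n}) (fun w hw => hw.1)
      (len_finite n)).trans (ncard_len n)
  exact_mod_cast h

theorem KB_triv (g : ContextFreeGrammar (Fin b)) (T : Set (List (Fin b))) (t : ℕ) :
    KB g T t ((b : ℝ) ^ t) := by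
  intro i j hij β γ _ p y z _
  rw [← hij]
  exact pair_card _ i j fun q hq => hq.1

theorem GB_triv (g : ContextFreeGrammar (Fin b)) (T : Set (List (Fin b))) (t : ℕ) :
    GB g T t ((b : ℝ) ^ t) := by
  intro i j hij β γ _ p y z _
  rw [← hij]
  exact pair_card _ i j fun q hq => hq.1

/-- One cut of words. -/
theorem WB_step (g : ContextFreeGrammar (Fin b)) (T : Set (List (Fin b))) (s : ℝ)
    (hs : ((items g).card : ℝ) ≤ s) (n : ℕ) (hn : 1 ≤ n) (F : ℝ) (hF : 0 ≤ F)
    (h : ∀ j t : ℕ, j + t = n → n ≤ 3 * j + 1 → n ≤ 3 * t → ∃ x y : ℝ, 0 ≤ x ∧ 0 ≤ y ∧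
      WB g T j x ∧ KB g T t y ∧ x * y ≤ F) :
    WB g T n (s * ((n : ℝ) + 1) ^ 2 * F) := by
  intro β hβ p z hT
  have hmain : ((Mid g β n).ncard : ℝ) ≤
      (items g ×ˢ (Finset.range (n + 1) ×ˢ Finset.range (n + 1))).card * F := by
    refine ncard_coverR (mid_fin g β n) _
      (fun t => {w | (t.2.1 + t.2.2 ≤ n ∧ t.2.2 ≤ 2 * n / 3 ∧ 2 * n / 3 ≤ 2 * t.2.2) ∧
        w ∈ Set.image2 (fun (q : List (Fin b) × List (Fin b)) v => q.1 ++ v ++ q.2)
          (Ks g β t.1 t.2.1 (n - t.2.1 - t.2.2)) (Mid g t.1 t.2.2)}) ?_ _ ?_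
    · rintro w ⟨hwl, hw⟩
      obtain ⟨γ, u, v, z', hγ, rfl, hv, hv1, hv2, hc⟩ := hw.cutx hβ (2 * n / 3) (by omega)
      rw [List.length_append, List.length_append] at hwl
      refine ⟨(γ, u.length, v.length), ?_, ?_, ?_⟩
      · simp only [Finset.mem_product, Finset.mem_range]
        exact ⟨mem_items.2 hγ, by omega, by omega⟩
      · exact ⟨by dsimp only; omega, by dsimp only; omega, by dsimp only; omega⟩
      · exact ⟨(u, z'), ⟨⟨rfl, by dsimp only; omega⟩, hc⟩, v, ⟨rfl, hv⟩, rfl⟩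
    · rintro ⟨γ, i, j⟩ ht
      simp only [Finset.mem_product, Finset.mem_range] at ht
      dsimp only
      by_cases hcond : i + j ≤ n ∧ j ≤ 2 * n / 3 ∧ 2 * n / 3 ≤ 2 * j
      swap
      · have : Mid g β n ∩ {w | (i + j ≤ n ∧ j ≤ 2 * n / 3 ∧ 2 * n / 3 ≤ 2 * j) ∧
            w ∈ Set.image2 (fun (q : List (Fin b) × List (Fin b)) v => q.1 ++ v ++ q.2)
              (Ks g β γ i (n - i - j)) (Mid g γ j)} = ∅ := by
          ext w
          simp only [Set.mem_inter_iff, Set.mem_ofPred_eq, Set.mem_empty_iff_false, iff_false,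
            not_and]
          intro _ hc
          exact absurd hc hcond
        rw [this, Set.ncard_empty, Nat.cast_zero]
        exact hF
      obtain ⟨k, hk⟩ : ∃ k, k = n - i - j := ⟨_, rfl⟩
      rw [← hk]
      have hijk : i + j + k = n := by omega
      obtain ⟨X, hX⟩ : ∃ X, X = Ks g β γ i k := ⟨_, rfl⟩
      obtain ⟨Y, hY⟩ : ∃ Y, Y = Mid g γ j := ⟨_, rfl⟩
      have hXf : X.Finite := by rw [hX]; exact ks_fin g β γ i k
      have hYf : Y.Finite := by rw [hY]; exact mid_fin g γ j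
      rw [← hX, ← hY]
      have h1 := (Set.ncard_le_ncard (t := Set.image2
        (fun (q : List (Fin b) × List (Fin b)) v => q.1 ++ v ++ q.2) X Y)
        (s := Mid g β n ∩ {w | (i + j ≤ n ∧ j ≤ 2 * n / 3 ∧ 2 * n / 3 ≤ 2 * j) ∧
          w ∈ Set.image2 (fun (q : List (Fin b) × List (Fin b)) v => q.1 ++ v ++ q.2) X Y})
        (fun w hw => hw.2.2) (hXf.image2 _ hYf)).trans (ncard_image2_le _ hXf hYf)
      have h2 : ((Mid g β n ∩ {w | (i + j ≤ n ∧ j ≤ 2 * n / 3 ∧ 2 * n / 3 ≤ 2 * j) ∧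
          w ∈ Set.image2 (fun (q : List (Fin b) × List (Fin b)) v => q.1 ++ v ++ q.2) X Y}).ncard
            : ℝ) ≤ X.ncard * Y.ncard := by exact_mod_cast h1
      refine h2.trans ?_
      rcases X.eq_empty_or_nonempty with h0 | ⟨x₀, hx₀⟩
      · rw [h0, Set.ncard_empty, Nat.cast_zero, zero_mul]; exact hF
      rcases Y.eq_empty_or_nonempty with h0 | ⟨y₀, hy₀⟩
      · rw [h0, Set.ncard_empty, Nat.cast_zero, mul_zero]; exact hF
      have hXY : ∀ x ∈ X, ∀ y ∈ Y, p ++ (x.1 ++ y ++ x.2) ++ z ∈ T := by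
        intro x hx y hy
        rw [hX] at hx
        rw [hY] at hy
        refine hT _ ⟨?_, hx.2.plug hy.2⟩
        rw [List.length_append, List.length_append, hx.1.1, hx.1.2, hy.1, hijk]
      obtain ⟨x, y, hx, hy, hWx, hKy, hxy⟩ := h j (i + k) (by omega) (by omega) (by omega)
      have k1 : (X.ncard : ℝ) ≤ y := by
        rw [hX]
        refine hKy i k rfl β γ hβ p y₀ z fun q hq => ?_
        exact hXY q (by rw [hX]; exact hq) y₀ hy₀
      have k2 : (Y.ncard : ℝ) ≤ x := by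
        rw [hY]
        refine hWx γ (mem_items.1 ht.1) (p ++ x₀.1) (x₀.2 ++ z) fun v hv => ?_
        have := hXY x₀ hx₀ v (by rw [hY]; exact hv)
        simpa [List.append_assoc] using this
      calc (X.ncard : ℝ) * Y.ncard ≤ y * x := by gcongr
        _ = x * y := mul_comm _ _
        _ ≤ F := hxy
  refine hmain.trans ?_
  refine mul_le_mul_of_nonneg_right ?_ hF
  rw [Finset.card_product, Finset.card_product, Finset.card_range, ← pow_two]
  push_cast
  exact mul_le_mul_of_nonneg_right hs (by positivity)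

/-- One cut of contexts. -/
theorem KB_step (g : ContextFreeGrammar (Fin b)) (T : Set (List (Fin b))) (s : ℝ)
    (hs : ((items g).card : ℝ) ≤ s) (n : ℕ) (hn : 1 ≤ n) (F : ℝ) (hF : 0 ≤ F)
    (h : ∀ t₀ a t₁ : ℕ, t₀ + a + t₁ = n → 2 * t₀ ≤ n → 2 * t₁ ≤ n → ∃ x y w : ℝ, 0 ≤ x ∧ 0 ≤ y ∧
      0 ≤ w ∧ KB g T t₀ x ∧ GB g T a y ∧ KB g T t₁ w ∧ x * y * w ≤ F) :
    KB g T n (s ^ 2 * ((n : ℝ) + 1) ^ 4 * F) := by
  intro i j hij β γ hβ p y z hT
  have hmain : ((Ks g β γ i j).ncard : ℝ) ≤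
      ((items g ×ˢ items g) ×ˢ ((Finset.range (n + 1) ×ˢ Finset.range (n + 1)) ×ˢ
        (Finset.range (n + 1) ×ˢ Finset.range (n + 1)))).card * F := by
    refine ncard_coverR (ks_fin g β γ i j) _
      (fun t => {q | (t.2.1.1 + t.2.2.1 ≤ i ∧ t.2.1.2 + t.2.2.2 ≤ j ∧
          2 * (t.2.1.1 + t.2.1.2) ≤ n ∧
          2 * ((i - t.2.1.1 - t.2.2.1) + (j - t.2.1.2 - t.2.2.2)) ≤ n) ∧
        q ∈ (fun r : ((List (Fin b) × List (Fin b)) × (List (Fin b) × List (Fin b))) ×
            (List (Fin b) × List (Fin b)) =>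
            (r.1.1.1 ++ r.1.2.1 ++ r.2.1, r.2.2 ++ r.1.2.2 ++ r.1.1.2)) ''
          ((Ks g β t.1.1 t.2.1.1 t.2.1.2 ×ˢ Gs g t.1.1 t.1.2 t.2.2.1 t.2.2.2) ×ˢ
            Ks g t.1.2 γ (i - t.2.1.1 - t.2.2.1) (j - t.2.1.2 - t.2.2.2))}) ?_ _ ?_
    · rintro ⟨u, v⟩ ⟨hl, hq⟩
      dsimp only at hl hq
      obtain ⟨δ, δ', u₀, z₀, a, c, u₁, z₁, i1, i2, h3, h4, h5, rfl, rfl, h6, h7⟩ :=
        hq.cut hβ (n / 2) (by omega)
      simp only [List.length_append] at hl
      refine ⟨((δ, δ'), ((u₀.length, z₀.length), (a.length, c.length))), ?_, ?_, ?_⟩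
      · simp only [Finset.mem_product, Finset.mem_range]
        exact ⟨⟨mem_items.2 i1, mem_items.2 i2⟩, ⟨by omega, by omega⟩, ⟨by omega, by omega⟩⟩
      · exact ⟨by dsimp only; omega, by dsimp only; omega, by dsimp only; omega,
          by dsimp only; omega⟩
      · refine ⟨(((u₀, z₀), (a, c)), (u₁, z₁)), ⟨⟨⟨⟨rfl, rfl⟩, h3⟩, ⟨⟨rfl, rfl⟩, h4⟩⟩,
          ⟨⟨by dsimp only; omega, by dsimp only; omega⟩, h5⟩⟩, rfl⟩
    · rintro ⟨⟨δ, δ'⟩, ⟨⟨i0, j0⟩, ⟨ia, ja⟩⟩⟩ ht
      simp only [Finset.mem_product, Finset.mem_range] at ht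
      dsimp only
      by_cases hcond : i0 + ia ≤ i ∧ j0 + ja ≤ j ∧ 2 * (i0 + j0) ≤ n ∧
          2 * ((i - i0 - ia) + (j - j0 - ja)) ≤ n
      swap
      · have hemp : ∀ Z : Set (List (Fin b) × List (Fin b)), Ks g β γ i j ∩
            {q | (i0 + ia ≤ i ∧ j0 + ja ≤ j ∧ 2 * (i0 + j0) ≤ n ∧
              2 * ((i - i0 - ia) + (j - j0 - ja)) ≤ n) ∧ q ∈ Z} = ∅ := by
          intro Z
          ext w
          simp only [Set.mem_inter_iff, Set.mem_ofPred_eq, Set.mem_empty_iff_false, iff_false,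
            not_and]
          intro _ hc
          exact absurd hc hcond
        rw [hemp, Set.ncard_empty, Nat.cast_zero]
        exact hF
      obtain ⟨i1, hi1⟩ : ∃ k, k = i - i0 - ia := ⟨_, rfl⟩
      obtain ⟨j1, hj1⟩ : ∃ k, k = j - j0 - ja := ⟨_, rfl⟩
      rw [← hi1, ← hj1]
      rw [← hi1, ← hj1] at hcond
      have hi : i0 + ia + i1 = i := by omega
      have hj : j0 + ja + j1 = j := by omega
      obtain ⟨X, hX⟩ : ∃ X, X = Ks g β δ i0 j0 := ⟨_, rfl⟩
      obtain ⟨Y, hY⟩ : ∃ Y, Y = Gs g δ δ' ia ja := ⟨_, rfl⟩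
      obtain ⟨Z, hZ⟩ : ∃ Z, Z = Ks g δ' γ i1 j1 := ⟨_, rfl⟩
      have hXf : X.Finite := by rw [hX]; exact ks_fin g _ _ _ _
      have hYf : Y.Finite := by rw [hY]; exact gs_fin g _ _ _ _
      have hZf : Z.Finite := by rw [hZ]; exact ks_fin g _ _ _ _
      rw [← hX, ← hY, ← hZ]
      have hPf : ((X ×ˢ Y) ×ˢ Z).Finite := (hXf.prod hYf).prod hZf
      have h1 : (Ks g β γ i j ∩ {q | (i0 + ia ≤ i ∧ j0 + ja ≤ j ∧ 2 * (i0 + j0) ≤ n ∧
              2 * (i1 + j1) ≤ n) ∧
          q ∈ (fun r : ((List (Fin b) × List (Fin b)) × (List (Fin b) × List (Fin b))) ×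
            (List (Fin b) × List (Fin b)) =>
            (r.1.1.1 ++ r.1.2.1 ++ r.2.1, r.2.2 ++ r.1.2.2 ++ r.1.1.2)) ''
          ((X ×ˢ Y) ×ˢ Z)}).ncard ≤ X.ncard * Y.ncard * Z.ncard := by
        refine (Set.ncard_le_ncard (t := (fun r : ((List (Fin b) × List (Fin b)) ×
            (List (Fin b) × List (Fin b))) × (List (Fin b) × List (Fin b)) =>
            (r.1.1.1 ++ r.1.2.1 ++ r.2.1, r.2.2 ++ r.1.2.2 ++ r.1.1.2)) ''
          ((X ×ˢ Y) ×ˢ Z)) (fun w hw => hw.2.2) (hPf.image _)).trans ?_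
        refine (Set.ncard_image_le hPf).trans ?_
        rw [Set.ncard_prod, Set.ncard_prod]
      have h2 : ((Ks g β γ i j ∩ {q | (i0 + ia ≤ i ∧ j0 + ja ≤ j ∧ 2 * (i0 + j0) ≤ n ∧
              2 * (i1 + j1) ≤ n) ∧
          q ∈ (fun r : ((List (Fin b) × List (Fin b)) × (List (Fin b) × List (Fin b))) ×
            (List (Fin b) × List (Fin b)) =>
            (r.1.1.1 ++ r.1.2.1 ++ r.2.1, r.2.2 ++ r.1.2.2 ++ r.1.1.2)) ''
          ((X ×ˢ Y) ×ˢ Z)}).ncard : ℝ) ≤ X.ncard * Y.ncard * Z.ncard := by exact_mod_cast h1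
      refine h2.trans ?_
      rcases X.eq_empty_or_nonempty with h0 | ⟨x₀, hx₀⟩
      · rw [h0, Set.ncard_empty, Nat.cast_zero, zero_mul, zero_mul]; exact hF
      rcases Y.eq_empty_or_nonempty with h0 | ⟨y₀, hy₀⟩
      · rw [h0, Set.ncard_empty, Nat.cast_zero, mul_zero, zero_mul]; exact hF
      rcases Z.eq_empty_or_nonempty with h0 | ⟨z₀, hz₀⟩
      · rw [h0, Set.ncard_empty, Nat.cast_zero, mul_zero]; exact hF
      have hXY : ∀ x ∈ X, ∀ y' ∈ Y, ∀ z' ∈ Z,
          p ++ ((x.1 ++ y'.1 ++ z'.1) ++ y ++ (z'.2 ++ y'.2 ++ x.2)) ++ z ∈ T := by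
        intro x hx y' hy' z' hz'
        rw [hX] at hx
        rw [hY] at hy'
        rw [hZ] at hz'
        have hc := (hx.2.comp hy'.2.cx).comp hz'.2
        refine hT (x.1 ++ y'.1 ++ z'.1, z'.2 ++ y'.2 ++ x.2) ⟨⟨?_, ?_⟩, ?_⟩
        · show (x.1 ++ y'.1 ++ z'.1).length = i
          rw [List.length_append, List.length_append, hx.1.1, hy'.1.1, hz'.1.1, hi]
        · show (z'.2 ++ y'.2 ++ x.2).length = j
          rw [List.length_append, List.length_append, hx.1.2, hy'.1.2, hz'.1.2]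
          omega
        · show Cx g β γ (x.1 ++ y'.1 ++ z'.1) (z'.2 ++ y'.2 ++ x.2)
          rw [List.append_assoc z'.2]
          exact hc
      obtain ⟨x, y', w, hx, hy, hw, hKx, hGy, hKw, hxyw⟩ := h (i0 + j0) (ia + ja) (i1 + j1)
        (by omega) (by omega) (by omega)
      have k1 : (X.ncard : ℝ) ≤ x := by
        rw [hX]
        refine hKx i0 j0 rfl β δ hβ p (y₀.1 ++ z₀.1 ++ y ++ z₀.2 ++ y₀.2) z fun q hq => ?_
        have := hXY q (by rw [hX]; exact hq) y₀ hy₀ z₀ hz₀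
        simpa [List.append_assoc] using this
      have k2 : (Y.ncard : ℝ) ≤ y' := by
        rw [hY]
        refine hGy ia ja rfl δ δ' (mem_items.1 ht.1.1) (p ++ x₀.1) (z₀.1 ++ y ++ z₀.2)
          (x₀.2 ++ z) fun q hq => ?_
        have := hXY x₀ hx₀ q (by rw [hY]; exact hq) z₀ hz₀
        simpa [List.append_assoc] using this
      have k3 : (Z.ncard : ℝ) ≤ w := by
        rw [hZ]
        refine hKw i1 j1 rfl δ' γ (mem_items.1 ht.1.2) (p ++ x₀.1 ++ y₀.1) y
          (y₀.2 ++ x₀.2 ++ z) fun q hq => ?_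
        have := hXY x₀ hx₀ y₀ hy₀ q (by rw [hZ]; exact hq)
        simpa [List.append_assoc] using this
      calc (X.ncard : ℝ) * Y.ncard * Z.ncard ≤ x * y' * w := by gcongr
        _ ≤ F := hxyw
  refine hmain.trans ?_
  refine mul_le_mul_of_nonneg_right ?_ hF
  rw [Finset.card_product, Finset.card_product, Finset.card_product, Finset.card_product,
    Finset.card_range]
  push_cast
  have hs0 : (0 : ℝ) ≤ (items g).card := Nat.cast_nonneg _
  calc ((items g).card : ℝ) * (items g).card * (((n : ℝ) + 1) * ((n : ℝ) + 1) *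
      (((n : ℝ) + 1) * ((n : ℝ) + 1))) = ((items g).card : ℝ) ^ 2 * ((n : ℝ) + 1) ^ 4 := by ring
    _ ≤ s ^ 2 * ((n : ℝ) + 1) ^ 4 := by gcongr

/-- Steps of total length at least two are few. -/
theorem GB_of_WB (g : ContextFreeGrammar (Fin b)) (T : Set (List (Fin b))) (s : ℝ)
    (hs : (g.rules.card : ℝ) ≤ s) (n : ℕ) (hn : 2 ≤ n) (F : ℝ) (hF : 0 ≤ F)
    (hW : WB g T n F) : GB g T n (2 * s * F) := by
  classical
  intro i j hij δ δ' hδ p y z hT
  have h1 : ((Gs g δ δ' i j).ncard : ℝ) ≤ (g.rules.disjSum g.rules).card * F := by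
    refine ncard_coverR (gs_fin g δ δ' i j) _
      (fun t => (Sum.elim
          (fun r => {q | ∃ β : List (Symbol (Fin b) g.NT), δ = Symbol.nonterminal r.input :: β ∧
            δ' = r.output ∧ q.1 = [] ∧ Yield g β q.2})
          (fun r => {q | ∃ β : List (Symbol (Fin b) g.NT), δ = Symbol.nonterminal r.input :: β ∧
            δ' = β ∧ q.2 = [] ∧ Yield g r.output q.1})) t) ?_ F ?_
    · rintro ⟨u, v⟩ ⟨hl, hq⟩
      dsimp only at hq
      cases hq with
      | term a β =>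
        exfalso
        dsimp only at hl
        simp only [List.length_cons, List.length_nil] at hl
        omega
      | into r hr h2 =>
        exact ⟨Sum.inl r, by simp [hr], _, rfl, rfl, rfl, h2⟩
      | past r hr h1 =>
        exact ⟨Sum.inr r, by simp [hr], _, rfl, rfl, rfl, h1⟩
    · intro t ht
      rcases t with r | r
      · have hr : r ∈ g.rules := by simpa using ht
        rcases (Gs g δ δ' i j ∩ {q | ∃ β : List (Symbol (Fin b) g.NT),
            δ = Symbol.nonterminal r.input :: β ∧ δ' = r.output ∧ q.1 = [] ∧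
              Yield g β q.2}).eq_empty_or_nonempty with h0 | ⟨x₀, hx₀, β, hβ, hδ', hx1, hx2⟩
        · show ((Gs g δ δ' i j ∩ {q | ∃ β : List (Symbol (Fin b) g.NT),
            δ = Symbol.nonterminal r.input :: β ∧ δ' = r.output ∧ q.1 = [] ∧
              Yield g β q.2}).ncard : ℝ) ≤ F
          rw [h0, Set.ncard_empty, Nat.cast_zero]; exact hF
        have hi : i = 0 := by rw [← hx₀.1.1, hx1]; rfl
        have hjn : j = n := by omega
        have hsub : Gs g δ δ' i j ∩ {q | ∃ β : List (Symbol (Fin b) g.NT),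
            δ = Symbol.nonterminal r.input :: β ∧ δ' = r.output ∧ q.1 = [] ∧
              Yield g β q.2} ⊆ (fun w => (([] : List (Fin b)), w)) '' Mid g β n := by
          rintro ⟨u, v⟩ ⟨⟨hl, _⟩, β', hβ', _, h1, h2⟩
          rw [hβ] at hβ'
          have := (List.cons.inj hβ').2
          subst this
          refine ⟨v, ⟨hl.2.trans hjn, h2⟩, ?_⟩
          dsimp only at h1
          rw [h1]
        have e1 := (Set.ncard_le_ncard hsub ((mid_fin g β n).image _)).trans
          (Set.ncard_image_le (mid_fin g β n))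
        have e2 : ((Gs g δ δ' i j ∩ {q | ∃ β : List (Symbol (Fin b) g.NT),
            δ = Symbol.nonterminal r.input :: β ∧ δ' = r.output ∧ q.1 = [] ∧
              Yield g β q.2}).ncard : ℝ) ≤ (Mid g β n).ncard := by exact_mod_cast e1
        refine e2.trans ?_
        refine hW β (by rw [hβ] at hδ; exact hδ.tail) (p ++ y) z fun w hw => ?_
        have := hT ([], w) ⟨⟨by rw [hi]; rfl, hw.1.trans hjn.symm⟩, by
          rw [hβ, hδ']; exact Step.into r hr hw.2⟩
        simpa [List.append_assoc] using this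
      · have hr : r ∈ g.rules := by simpa using ht
        rcases (Gs g δ δ' i j ∩ {q | ∃ β : List (Symbol (Fin b) g.NT),
            δ = Symbol.nonterminal r.input :: β ∧ δ' = β ∧ q.2 = [] ∧
              Yield g r.output q.1}).eq_empty_or_nonempty with h0 | ⟨x₀, hx₀, β, hβ, hδ', hx1, hx2⟩
        · show ((Gs g δ δ' i j ∩ {q | ∃ β : List (Symbol (Fin b) g.NT),
            δ = Symbol.nonterminal r.input :: β ∧ δ' = β ∧ q.2 = [] ∧
              Yield g r.output q.1}).ncard : ℝ) ≤ F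
          rw [h0, Set.ncard_empty, Nat.cast_zero]; exact hF
        have hj : j = 0 := by rw [← hx₀.1.2, hx1]; rfl
        have hin : i = n := by omega
        have hsub : Gs g δ δ' i j ∩ {q | ∃ β : List (Symbol (Fin b) g.NT),
            δ = Symbol.nonterminal r.input :: β ∧ δ' = β ∧ q.2 = [] ∧
              Yield g r.output q.1} ⊆ (fun w => (w, ([] : List (Fin b)))) '' Mid g r.output n := by
          rintro ⟨u, v⟩ ⟨⟨hl, _⟩, β', hβ', _, h1, h2⟩
          refine ⟨u, ⟨hl.1.trans hin, h2⟩, ?_⟩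
          dsimp only at h1
          rw [h1]
        have e1 := (Set.ncard_le_ncard hsub ((mid_fin g r.output n).image _)).trans
          (Set.ncard_image_le (mid_fin g r.output n))
        have e2 : ((Gs g δ δ' i j ∩ {q | ∃ β : List (Symbol (Fin b) g.NT),
            δ = Symbol.nonterminal r.input :: β ∧ δ' = β ∧ q.2 = [] ∧
              Yield g r.output q.1}).ncard : ℝ) ≤ (Mid g r.output n).ncard := by exact_mod_cast e1
        refine e2.trans ?_
        refine hW r.output (isItem_output hr) p (y ++ z) fun w hw => ?_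
        have := hT (w, []) ⟨⟨hw.1.trans hin.symm, by rw [hj]; rfl⟩, by
          rw [hβ, hδ']; exact Step.past r hr hw.2⟩
        simpa [List.append_assoc] using this
  refine h1.trans (mul_le_mul_of_nonneg_right ?_ hF)
  rw [Finset.card_disjSum]
  push_cast
  linarith

end Vale.Agent.P042.H352
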