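import Vale.Agent.P042.R2.H352.Main

set_option autoImplicit false

/-!
# P042, context free grammars: sets of natural numbers whose expansions form a context free language
-/

namespace Vale.Agent.P042.H352

open Set Vale.Agent.P001.R2.H953 Polynomial Vale.Agent.P042.H463

lemma geom_le {q : ℝ} (hq : 4 / 3 ≤ q) (n : ℕ) :
    ∑ i ∈ Finset.range (n + 1), q ^ i ≤ 4 * q ^ n := by
  induction n with
  | zero => simp
  | succ n ih =>
    rw [Finset.sum_range_succ]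
    have h1 : 0 < q ^ n := by positivity
    have h2 : 4 * q ^ n ≤ 3 * q ^ (n + 1) := by
      rw [pow_succ]; nlinarith
    linarith

lemma two_half {x : ℝ} (hx : 1 / 2 ≤ x) {b : ℝ} (hb : 2 ≤ b) : 4 / 3 ≤ b ^ x := by
  have h1 : b ^ (1 / 2 : ℝ) ≤ b ^ x := Real.rpow_le_rpow_of_exponent_le (by linarith) hx
  have h2 : (2 : ℝ) ^ (1 / 2 : ℝ) ≤ b ^ (1 / 2 : ℝ) :=
    Real.rpow_le_rpow (by norm_num) hb (by norm_num)
  have h3 : (4 / 3 : ℝ) ≤ 2 ^ (1 / 2 : ℝ) := by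
    rw [← Real.sqrt_eq_rpow]
    exact Real.le_sqrt_of_sq_le (by norm_num)
  linarith

variable {a k : ℕ}

/-- Sets of natural numbers whose base `b` expansions form a context free language. -/
theorem cfg_set (hk : 1 ≤ k)
    (H : ∀ c : ℝ, c < 1 → ∃ K : ℝ, 0 < K ∧ ∀ N : ℕ, 1 ≤ N →
      (rMax (C (a : ℤ) * X ^ k : ℤ[X]) N : ℝ) ≤ K * N * Real.exp (-(Real.log N) ^ c))
    {ε : ℝ} (hε : 0 < ε) :
    ∃ δ K : ℝ, 0 < δ ∧ 0 < K ∧ ∀ (b s : ℕ) (g : ContextFreeGrammar (Fin b)) (S : Set ℕ),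
      2 ≤ b → ∑ r ∈ g.rules, (r.output.length + 1) + 2 ≤ s →
      (∀ w : List (Fin b), w ∈ g.language ↔ ∃ n ∈ S, w.map Fin.val = Nat.digits b n) →
      (∀ x ∈ S, ∀ y ∈ S, ∀ n : ℕ, 1 ≤ n → x ≠ y + a * n ^ k) → ∀ N : ℕ, 1 ≤ N →
      ((S ∩ Set.Iio N).ncard : ℝ) ≤ K * b * (N : ℝ) ^ (1 - δ / (1 + Real.log (b * s)) ^ ε) := by
  classical
  obtain ⟨δ₀, K, hδ₀, hK, h⟩ := cfg_bound hk H hε
  refine ⟨min δ₀ (1 / 2), 4 * K, by positivity, by positivity, ?_⟩
  intro b s g S hb hs hg hfree N hN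
  have hb1 : (1 : ℝ) ≤ b := by exact_mod_cast (by omega : 1 ≤ b)
  have hbr : (2 : ℝ) ≤ b := by exact_mod_cast hb
  have hN1 : (1 : ℝ) ≤ N := by exact_mod_cast hN
  have hs1 : (1 : ℝ) ≤ s := by exact_mod_cast (by omega : 1 ≤ s)
  obtain ⟨W, hW⟩ : ∃ W : ℝ, W = 1 + Real.log (b * s) := ⟨_, rfl⟩
  have hW1 : 1 ≤ W := by
    have : 0 ≤ Real.log (b * s) := Real.log_nonneg (one_le_mul_of_one_le_of_one_le hb1 hs1)
    linarith
  rw [← hW]
  have hWε : 1 ≤ W ^ ε := Real.one_le_rpow hW1 hε.le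
  obtain ⟨θ, hθ⟩ : ∃ θ : ℝ, θ = min δ₀ (1 / 2) / W ^ ε := ⟨_, rfl⟩
  rw [← hθ]
  have hθ0 : 0 ≤ θ := by rw [hθ]; positivity
  have hθh : θ ≤ 1 / 2 := by
    rw [hθ]
    exact (div_le_self (by positivity) hWε).trans (min_le_right _ _)
  have hθδ : θ ≤ δ₀ / W ^ ε := by
    rw [hθ]
    gcongr
    exact min_le_left _ _
  -- the numbers with `L` digits
  obtain ⟨m, hm1, hm2⟩ : ∃ m : ℕ, N ≤ b ^ m ∧ (b : ℝ) ^ m ≤ b * N := by
    refine ⟨Nat.clog b N, Nat.le_pow_clog (by omega) N, ?_⟩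
    rcases Nat.lt_or_ge 1 N with h | h
    · have h1 := Nat.pow_pred_clog_lt_self (b := b) (by omega) h
      have h2 : 0 < Nat.clog b N := Nat.clog_pos (by omega) h
      obtain ⟨l, hl⟩ : ∃ l, Nat.clog b N = l + 1 := ⟨Nat.clog b N - 1, by omega⟩
      rw [hl] at h1 ⊢
      simp only [Nat.pred_succ] at h1
      rw [pow_succ, mul_comm]
      have h3 : ((b : ℝ) ^ l) ≤ N := by exact_mod_cast h1.le
      gcongr
    · have : N = 1 := by omega
      subst this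
      simp
      linarith
  have hfin : ∀ L : ℕ, {n | n ∈ S ∧ (Nat.digits b n).length = L}.Finite := by
    intro L
    refine (Set.finite_Iio (b ^ L)).subset ?_
    rintro n ⟨_, hn⟩
    have := Nat.lt_base_pow_length_digits (b := b) (m := n) (by omega)
    rw [hn] at this
    exact this
  have hpiece : ∀ L : ℕ, ({n | n ∈ S ∧ (Nat.digits b n).length = L}.ncard : ℝ) ≤
      K * ((b : ℝ) ^ L) ^ (1 - θ) := by
    intro L
    obtain ⟨A, hA⟩ : ∃ A : Finset ℤ, A = (hfin L).toFinset.image fun n : ℕ => (n : ℤ) := ⟨_, rfl⟩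
    have hcard : {n | n ∈ S ∧ (Nat.digits b n).length = L}.ncard = A.card := by
      rw [hA, Finset.card_image_of_injective _ Nat.cast_injective,
        Set.ncard_eq_toFinset_card _ (hfin L)]
    have hmem : ∀ x : ℤ, x ∈ A ↔ ∃ n : ℕ, (n ∈ S ∧ (Nat.digits b n).length = L) ∧ (n : ℤ) = x := by
      intro x
      rw [hA, Finset.mem_image]
      simp only [Set.Finite.mem_toFinset, Set.mem_ofPred_eq]
    have h1 := h b L s g A hb hs (by
      intro x
      rw [hmem]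
      constructor
      · rintro ⟨n, ⟨hn, hnl⟩, rfl⟩
        obtain ⟨w, hw⟩ : ∃ w : List (Fin b), w.map Fin.val = Nat.digits b n := by
          refine ⟨(Nat.digits b n).pmap (fun d hd => (⟨d, hd⟩ : Fin b))
            (fun d hd => Nat.digits_lt_base (by omega) hd), ?_⟩
          rw [List.map_pmap]
          simp
        refine ⟨w, (hg w).2 ⟨n, hn, hw⟩, ?_, ?_⟩
        · rw [← List.length_map (f := Fin.val), hw, hnl]
        · rw [hw, Nat.ofDigits_digits]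
      · rintro ⟨w, hw, hwl, rfl⟩
        obtain ⟨n, hn, hwn⟩ := (hg w).1 hw
        refine ⟨n, ⟨hn, ?_⟩, ?_⟩
        · rw [← hwn, List.length_map, hwl]
        · rw [hwn, Nat.ofDigits_digits]) (by
      rw [diffFree_iff]
      intro x hx y hy n hn he
      obtain ⟨x', ⟨hx', _⟩, rfl⟩ := (hmem x).1 hx
      obtain ⟨y', ⟨hy', _⟩, rfl⟩ := (hmem y).1 hy
      exfalso
      rw [eval_mono] at he
      refine hfree x' hx' y' hy' n hn ?_
      have : (x' : ℤ) = y' + a * (n : ℤ) ^ k := by linarith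
      exact_mod_cast this)
    rw [hcard]
    refine h1.trans ?_
    rw [← hW]
    have hbL : (1 : ℝ) ≤ (b : ℝ) ^ L := one_le_pow₀ hb1
    exact mul_le_mul_of_nonneg_left (Real.rpow_le_rpow_of_exponent_le hbL (by linarith)) hK.le
  have hcover : ((S ∩ Set.Iio N).ncard : ℝ) ≤
      ∑ L ∈ Finset.range (m + 1), ({n | n ∈ S ∧ (Nat.digits b n).length = L}.ncard : ℝ) := by
    have h1 : S ∩ Set.Iio N ⊆ ⋃ L ∈ Finset.range (m + 1),
        {n | n ∈ S ∧ (Nat.digits b n).length = L} := by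
      rintro n ⟨hn, hnN⟩
      have hnN' : n < N := hnN
      simp only [Set.mem_iUnion, Finset.mem_range]
      refine ⟨(Nat.digits b n).length, ?_, hn, rfl⟩
      have := (Nat.digits_length_le_iff (b := b) (by omega) n (k := m)).2 (by omega)
      omega
    have h2 : (⋃ L ∈ Finset.range (m + 1),
        {n | n ∈ S ∧ (Nat.digits b n).length = L}).Finite :=
      (Finset.finite_toSet _).biUnion fun L _ => hfin L
    have h3 := (Set.ncard_le_ncard h1 h2).trans (Finset.set_ncard_biUnion_le _ _)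
    exact_mod_cast h3
  refine hcover.trans ((Finset.sum_le_sum fun L _ => hpiece L).trans ?_)
  rw [← Finset.mul_sum]
  have hpow : ∀ L : ℕ, ((b : ℝ) ^ L) ^ (1 - θ) = ((b : ℝ) ^ (1 - θ)) ^ L := by
    intro L
    rw [← Real.rpow_natCast, ← Real.rpow_natCast, ← Real.rpow_mul (by linarith),
      ← Real.rpow_mul (by linarith), mul_comm]
  have hsum : ∑ L ∈ Finset.range (m + 1), ((b : ℝ) ^ L) ^ (1 - θ) ≤
      4 * ((b : ℝ) ^ m) ^ (1 - θ) := by
    rw [hpow m]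
    calc ∑ L ∈ Finset.range (m + 1), ((b : ℝ) ^ L) ^ (1 - θ) =
        ∑ L ∈ Finset.range (m + 1), ((b : ℝ) ^ (1 - θ)) ^ L :=
          Finset.sum_congr rfl fun L _ => hpow L
      _ ≤ 4 * ((b : ℝ) ^ (1 - θ)) ^ m := geom_le (two_half (by linarith) hbr) m
  have hlast : ((b : ℝ) ^ m) ^ (1 - θ) ≤ b * (N : ℝ) ^ (1 - θ) := by
    calc ((b : ℝ) ^ m) ^ (1 - θ) ≤ ((b : ℝ) * N) ^ (1 - θ) :=
          Real.rpow_le_rpow (by positivity) hm2 (by linarith)
      _ = (b : ℝ) ^ (1 - θ) * (N : ℝ) ^ (1 - θ) :=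
          Real.mul_rpow (by linarith) (by linarith)
      _ ≤ (b : ℝ) ^ (1 : ℝ) * (N : ℝ) ^ (1 - θ) := by
          have := Real.rpow_le_rpow_of_exponent_le hb1 (show 1 - θ ≤ 1 by linarith)
          gcongr
      _ = b * (N : ℝ) ^ (1 - θ) := by rw [Real.rpow_one]
  calc K * ∑ L ∈ Finset.range (m + 1), ((b : ℝ) ^ L) ^ (1 - θ) ≤
      K * (4 * (b * (N : ℝ) ^ (1 - θ))) := by
        gcongr
        exact hsum.trans (by gcongr)
    _ = 4 * K * b * (N : ℝ) ^ (1 - θ) := by ring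

end Vale.Agent.P042.H352
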